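import Mathlib

/-!
Basic notions for the second neighbourhood problem.
-/

namespace Vale.Agent.P038

variable {V : Type*}

/-- Out-neighbours of `v`. -/
noncomputable def outOne [Fintype V] (A : V → V → Prop) (v : V) : Finset V :=
  open Classical in Finset.univ.filter (fun x => A v x)

/-- Second out-neighbours of `v`: vertices other than `v`, not out-neighbours of `v`, reached by
a directed path with two arcs. -/
noncomputable def outTwo [Fintype V] (A : V → V → Prop) (v : V) : Finset V :=
  open Classical in Finset.univ.filter (fun x => x ≠ v ∧ ¬ A v x ∧ ∃ u, A v u ∧ A u x)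

/-- `Misses A y b`: `b` lies neither in the first nor in the second out-neighbourhood of `y`
(this includes `b = y`). -/
def Misses [Fintype V] (A : V → V → Prop) (y b : V) : Prop :=
  b ∉ outOne A y ∧ b ∉ outTwo A y

/-- `Loses A c y`: some out-neighbour of `c` is missed by `y`. -/
def Loses [Fintype V] (A : V → V → Prop) (c y : V) : Prop :=
  ∃ b, A c b ∧ Misses A y b

/-- The out-neighbours `x` of `v` not missed by any vertex `y` of `Y` that is nonadjacent to `v`
and mutually losing with `v`. -/
noncomputable def safeOut [Fintype V] (A : V → V → Prop) (Y : Finset V) (v : V) : Finset V :=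
  open Classical in Finset.univ.filter (fun x => A v x ∧ ¬ ∃ y, y ∈ Y ∧ v ≠ y ∧ ¬ A v y ∧
    ¬ A y v ∧ Misses A y x ∧ Loses A v y ∧ Loses A y v)

end Vale.Agent.P038
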