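import Vale.Agent.P038.DenseMain

/-!
Constants for the two applications.
-/

namespace Vale.Agent.P038.Dense

open Finset

open scoped Classical in
/-- The exact inequality at a chosen pair of vertices. -/
lemma exact_vertex {V : Type} [Fintype V] [Nonempty V] (A : V → V → Prop)
    (hA : ∀ u v, A u v → ¬ A v u) (w : V → V → ℝ) (γ ε δ θ ζ : ℝ) (K m : ℕ)
    (hγ : 0 < γ) (hγ2 : γ ≤ 1 / 2) (hζ0 : 0 < ζ) (hζ1 : ζ ≤ 1) (hζ : ζ = γ ^ 2 * ε / 20)
    (hθ : θ ≤ ζ ^ 2 * γ) (hθ0 : 0 < θ) (hK0 : 0 < K) (hm0 : 0 < m) (hm : 8 ≤ ζ * θ ^ 2 * m)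
    (hθn : 1 ≤ θ * Fintype.card V) (hK : 1 ≤ θ * K) (hKδ : K * δ ≤ θ) (hδζ : δ ≤ ζ ^ 2)
    (hsymm : ∀ x y, w x y = w y x) (hwl : ∀ x y, 1 / (1 - γ) ≤ w x y)
    (hwu : ∀ x y, w x y ≤ 1 / γ)
    (hq : ∀ X Y : Finset V, |∑ x ∈ X, ∑ y ∈ Y, dev A w x y| ≤ δ * (Fintype.card V : ℝ) ^ 2)
    (f : V → ℕ) (hf : Function.Injective f) (hlt : ∀ x, f x < Fintype.card V)
    (hmax : ∀ g : V → ℕ, Function.Injective g →
      forwardWeight (arcWeight A w) g ≤ forwardWeight (arcWeight A w) f)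
    (v v' : V)
    (hvlate : ((univ.filter fun y => f v < f y).card : ℝ) < ζ * Fintype.card V)
    (hvint : ∀ b ≤ Fintype.card V, ∑ y ∈ univ.filter (fun y => b ≤ f y), dev A w v y
        ≤ (θ + 2 * θ / γ) * Fintype.card V)
    (hout : ∀ v, ε * (Fintype.card V : ℝ) ≤ (firstNbrs A v).card)
    (hvgood : (((firstNbrs A v').filter (Joined A v)).card : ℝ)
      ≤ (1 - γ) * (firstNbrs A v').card + θ * Fintype.card V)
    (hB : (((unreached A v).filter fun r =>
          θ * Fintype.card V ≤ ((univ.filter fun z => A v' z ∧ A z r).card : ℝ)).card : ℝ) * θ ^ 2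
        ≤ 8 * Fintype.card V / m) :
    (firstNbrs A v).card ≤ (secondNbrs A v).card := by
  set n : ℝ := (Fintype.card V : ℝ) with hn
  have hn0 : 0 < n := by rw [hn]; exact_mod_cast Fintype.card_pos
  have hγ1 : γ ≤ 1 := by linarith
  have hθζ : θ ≤ ζ := hθ.trans (by nlinarith [mul_le_mul_of_nonneg_right hζ1 hζ0.le, sq_nonneg ζ])
  have hw0 : ∀ x y, 0 ≤ w x y ∧ w x y ≤ 1 / γ := fun x y =>
    ⟨le_trans (one_div_nonneg.mpr (by linarith)) (hwl x y), hwu x y⟩
  set R' := (unreached A v).filter fun r =>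
    ((univ.filter fun z => A v' z ∧ A z r).card : ℝ) < θ * n with hR'
  set D := ((firstNbrs A v').filter fun y => ¬ Joined A v y) \ R' with hD
  have hκ : ((unreached A v \ R').card : ℝ) ≤ ζ * n := by
    refine le_of_mul_le_mul_right ?_ (pow_pos hθ0 2)
    refine le_trans (mul_le_mul_of_nonneg_right ?_ (sq_nonneg θ)) (hB.trans ?_)
    · refine Nat.cast_le.mpr (card_le_card fun r hr => ?_)
      simp only [hR', mem_sdiff, mem_filter, not_and, not_lt] at hr ⊢
      exact ⟨hr.1, hr.2 hr.1⟩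
    · rw [div_le_iff₀ (by exact_mod_cast hm0)]
      nlinarith [mul_le_mul_of_nonneg_left hm hn0.le]
  have hlose : ∀ r ∈ R', ((D.filter fun y => A y r).card : ℝ) ≤ θ * n := by
    intro r hr
    refine le_trans (Nat.cast_le.mpr (card_le_card fun y hy => ?_)) (mem_filter.mp hr).2.le
    obtain ⟨hyD, hyr⟩ := mem_filter.mp hy
    exact mem_filter.mpr ⟨mem_univ y,
      (mem_filter.mp (mem_filter.mp (mem_sdiff.mp hyD).1).1).2, hyr⟩
  have hcore := core A hA w γ (1 - γ) δ θ ζ ζ K hγ hγ1 hζ0 hζ1 (by linarith) (by linarith) hK0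
    hθ hθn hK hKδ le_rfl hsymm hwl hwu hq f hf hlt hmax v hvlate hvint
    R' D (filter_subset _ _) hκ
    (fun y hy => ⟨(mem_filter.mp (mem_sdiff.mp hy).1).2, (mem_sdiff.mp hy).2⟩) hlose
  have hY := small_in_unreached A hA w γ δ θ ζ v' hγ hζ0 hθ0.le hθ hδζ hsymm hw0 hq R'
    (fun r hr => (mem_filter.mp hr).2.le)
  have hsp : ((firstNbrs A v').card : ℝ) ≤ ((firstNbrs A v').filter (Joined A v)).card
      + (D.card + (firstNbrs A v' ∩ R').card) := by
    rw [← Nat.cast_add, ← Nat.cast_add]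
    refine Nat.cast_le.mpr ?_
    refine le_trans ?_ (Nat.add_le_add_left (card_union_le _ _) _)
    refine le_trans (card_le_card fun y hy => ?_) (card_union_le _ _)
    simp only [hD, mem_union, mem_sdiff, mem_inter, mem_filter]
    tauto
  have hDlow : γ * ε * n - 3 * ζ * n ≤ D.card := by
    have h1 := mul_le_mul_of_nonneg_left (hout v') hγ.le
    linarith [mul_le_mul_of_nonneg_right hθζ hn0.le]
  have hge : ((firstNbrs A v).card : ℝ) ≤ (secondNbrs A v).card := by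
    rw [sub_sub_cancel] at hcore
    have h1 := mul_le_mul_of_nonneg_left hDlow hγ.le
    have h2 : 20 * ζ * n = γ ^ 2 * ε * n := by simp only [hζ]; ring
    have h3 : γ * (3 * ζ * n) ≤ 3 * ζ * n := mul_le_of_le_one_left (by positivity) hγ1
    linarith
  exact_mod_cast hge

open scoped Classical in
/-- Exact inequality: pair densities in `[γ, 1 - γ]` and linear minimum out-degree. -/
lemma exact_case (γ ε : ℝ) (hγ : 0 < γ) (hγ2 : γ ≤ 1 / 2) (hε : 0 < ε) (hε1 : ε ≤ 1) :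
    ∃ η : ℝ, 0 < η ∧ ∀ (V : Type) [Fintype V] [Nonempty V] (A : V → V → Prop),
      (∀ u v, A u v → ¬ A v u) →
      (∀ X Y : Finset V, Disjoint X Y → η * Fintype.card V ≤ X.card →
        η * Fintype.card V ≤ Y.card →
        γ * X.card * Y.card ≤ adjCount A X Y ∧ adjCount A X Y ≤ (1 - γ) * X.card * Y.card) →
      (∀ v, ε * (Fintype.card V : ℝ) ≤ (firstNbrs A v).card) →
      ∃ v, (firstNbrs A v).card ≤ (secondNbrs A v).card := by
  set ζ := γ ^ 2 * ε / 20 with hζ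
  have hζ0 : 0 < ζ := by positivity
  have hγ1 : γ ≤ 1 := by linarith
  have hγ21 : γ ^ 2 ≤ 1 := pow_le_one₀ hγ.le hγ1
  have hζ1 : ζ ≤ 1 := by simp only [hζ]; nlinarith
  set θ := ζ ^ 2 * γ with hθ
  have hθ0 : 0 < θ := by positivity
  have hθζ : θ ≤ ζ := by
    simp only [hθ]
    nlinarith [mul_le_mul_of_nonneg_right hζ1 hζ0.le, sq_nonneg ζ]
  obtain ⟨K, hK⟩ : ∃ K : ℕ, 1 ≤ θ * K := by
    obtain ⟨K, hK⟩ := exists_nat_ge (1 / θ)
    exact ⟨K, by rwa [div_le_iff₀' hθ0] at hK⟩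
  have hK0 : 0 < K := by
    rcases Nat.eq_zero_or_pos K with h | h
    · subst h; norm_num at hK
    · exact h
  obtain ⟨m, hm⟩ : ∃ m : ℕ, 8 ≤ ζ * θ ^ 2 * m := by
    obtain ⟨m, hm⟩ := exists_nat_ge (8 / (ζ * θ ^ 2))
    exact ⟨m, by rwa [div_le_iff₀' (by positivity)] at hm⟩
  have hm0 : 0 < m := by
    rcases Nat.eq_zero_or_pos m with h | h
    · subst h; norm_num at hm
    · exact h
  set δ := θ * ζ / (2 * (K + 1)) with hδ
  have hδ0 : 0 < δ := by positivity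
  obtain ⟨η₀, hη₀, -, hweight⟩ := exists_weight γ (1 - γ) δ hγ (by linarith) (by linarith) hδ0
  set η := min η₀ (min (θ / 3) (min (ε / 3) (ζ / (16 * 2 ^ m)))) with hη
  have hη0 : 0 < η := by positivity
  refine ⟨η, hη0, fun V _ _ A hA hd hout => ?_⟩
  set n : ℝ := (Fintype.card V : ℝ) with hn
  have hn0 : 0 < n := by rw [hn]; exact_mod_cast Fintype.card_pos
  have hn1 : 1 ≤ η * n := by
    by_contra h
    obtain ⟨x⟩ := ‹Nonempty V›
    have hne : (firstNbrs A x).Nonempty := by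
      rw [← card_pos]
      exact_mod_cast lt_of_lt_of_le (mul_pos hε hn0) (hout x)
    obtain ⟨y, hy⟩ := hne
    have hxy : A x y := (mem_filter.mp hy).2
    have hne' : x ≠ y := fun e => by rw [e] at hxy; exact hA y y hxy hxy
    have := (hd {x} {y} (disjoint_singleton.mpr hne') (by simp; linarith) (by simp; linarith)).2
    simp [adjCount, Joined, hxy, filter_singleton] at this
    linarith
  have hη₀le : η ≤ η₀ := min_le_left _ _
  have hη₀n : η * n ≤ η₀ * n := mul_le_mul_of_nonneg_right hη₀le hn0.le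
  obtain ⟨w, hsymm, hwb, hq⟩ := hweight V A hA (hn1.trans hη₀n) (fun X Y hXY hX hY =>
    hd X Y hXY (hη₀n.trans hX) (hη₀n.trans hY))
  have hwl : ∀ x y, 1 / (1 - γ) ≤ w x y := fun x y => (hwb x y).1
  have hw0 : ∀ x y, 0 ≤ w x y ∧ w x y ≤ 1 / γ := fun x y =>
    ⟨le_trans (one_div_nonneg.mpr (by linarith)) (hwl x y), (hwb x y).2⟩
  obtain ⟨f, hf, hlt, hmax⟩ := exists_weighted_median (arcWeight A w)
  have hθn : 1 ≤ θ * n := hn1.trans (mul_le_mul_of_nonneg_right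
    (((min_le_right _ _).trans (min_le_left _ _)).trans (by linarith)) hn0.le)
  have hKδ : (K : ℝ) * δ ≤ θ := by
    rw [hδ, mul_div_assoc', div_le_iff₀ (by positivity)]
    nlinarith [mul_le_mul_of_nonneg_left hζ1 (mul_nonneg (Nat.cast_nonneg K) hθ0.le)]
  have hδbad : ((K : ℝ) + 1) * (δ / θ) ≤ ζ / 2 := by
    rw [hδ]
    apply le_of_eq
    field_simp
  obtain ⟨L, hL, hLv⟩ := exists_late A w γ δ θ ζ K hγ hγ1 hK0 hθ0 hK hθn hζ1 hδbad hw0 hq f hf
  have h3η : 3 * η ≤ θ := by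
    have := (min_le_right η₀ _).trans (min_le_left (θ / 3) (min (ε / 3) (ζ / (16 * 2 ^ m))))
    linarith
  have h3ε : 3 * η ≤ ε := by
    have := ((min_le_right η₀ _).trans (min_le_right (θ / 3) _)).trans
      (min_le_left (ε / 3) (ζ / (16 * 2 ^ m)))
    linarith
  have hexc := fun v' : V => few_upper A γ η θ hη0.le hγ1 h3η hn1
    (fun X Y hXY hX hY => (hd X Y hXY hX hY).2) (firstNbrs A v')
    ((mul_le_mul_of_nonneg_right h3ε hn0.le).trans (hout v'))
  obtain ⟨v, hv, v', -, hvbad, hB⟩ := exists_pair A θ (ζ / 2) (2 * η) m hm0 hθ0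
    (fun v' => univ.filter fun x => (1 - γ) * (firstNbrs A v').card + θ * n
      < (((firstNbrs A v').filter (Joined A x)).card : ℝ)) hexc L hL (by positivity) (by
      have h := ((min_le_right η₀ _).trans (min_le_right (θ / 3) _)).trans
        (min_le_right (ε / 3) (ζ / (16 * 2 ^ m)))
      rw [← hη] at h
      calc 2 * η ≤ 2 * (ζ / (16 * 2 ^ m)) := by linarith
        _ = ζ / (2 * 2 ^ m) / 4 := by ring
        _ < ζ / 2 / (2 * 2 ^ m) := by
            rw [div_div ζ 2, div_div ζ (2 * 2 ^ m)]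
            refine div_lt_div_of_pos_left hζ0 (by positivity) ?_
            have : (0 : ℝ) < 2 ^ m := by positivity
            linarith)
  have hδζ : δ ≤ ζ ^ 2 := by
    have h1 : δ ≤ θ * ζ := div_le_self (by positivity) (by
      have : (0 : ℝ) ≤ K := Nat.cast_nonneg K
      linarith)
    nlinarith [mul_le_mul_of_nonneg_right hθζ hζ0.le]
  obtain ⟨hvlate, hvint⟩ := hLv v hv
  exact ⟨v, exact_vertex A hA w γ ε δ θ ζ K m hγ hγ2 hζ0 hζ1 hζ le_rfl hθ0 hK0 hm0 hm hθn hK hKδ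
    hδζ hsymm hwl (fun x y => (hwb x y).2) hq f hf hlt hmax v v' hvlate hvint hout
    (not_lt.mp fun h => hvbad (mem_filter.mpr ⟨mem_univ v, h⟩)) hB⟩

open scoped Classical in
/-- Asymptotic inequality: pair densities at least `γ`, on more than `1 / η` vertices. -/
lemma asymptotic_case (γ ε : ℝ) (hγ : 0 < γ) (hγ1 : γ ≤ 1) (hε : 0 < ε) (hε1 : ε ≤ 1) :
    ∃ η : ℝ, 0 < η ∧ ∀ (V : Type) [Fintype V] [Nonempty V] (A : V → V → Prop),
      (∀ u v, A u v → ¬ A v u) →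
      (∀ X Y : Finset V, Disjoint X Y → η * Fintype.card V ≤ X.card →
        η * Fintype.card V ≤ Y.card → γ * X.card * Y.card ≤ adjCount A X Y) →
      1 ≤ η * Fintype.card V →
      ∃ v, ((firstNbrs A v).card : ℝ) ≤ (secondNbrs A v).card + ε * Fintype.card V := by
  set ζ := ε / 20 with hζ
  have hζ0 : 0 < ζ := by positivity
  have hζ1 : ζ ≤ 1 := by simp only [hζ]; linarith
  set θ := ζ ^ 2 * γ with hθ
  have hθ0 : 0 < θ := by positivity
  obtain ⟨K, hK⟩ : ∃ K : ℕ, 1 ≤ θ * K := by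
    obtain ⟨K, hK⟩ := exists_nat_ge (1 / θ)
    exact ⟨K, by rwa [div_le_iff₀' hθ0] at hK⟩
  have hK0 : 0 < K := by
    rcases Nat.eq_zero_or_pos K with h | h
    · subst h; norm_num at hK
    · exact h
  set δ := θ * ζ / (2 * (K + 1)) with hδ
  have hδ0 : 0 < δ := by positivity
  obtain ⟨η₀, hη₀, -, hweight⟩ := exists_weight γ 1 δ hγ hγ1 le_rfl hδ0
  refine ⟨min η₀ θ, lt_min hη₀ hθ0, fun V _ _ A hA hd hn1 => ?_⟩
  set n : ℝ := (Fintype.card V : ℝ) with hn
  have hn0 : 0 < n := by rw [hn]; exact_mod_cast Fintype.card_pos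
  have hη₀n : min η₀ θ * n ≤ η₀ * n := mul_le_mul_of_nonneg_right (min_le_left _ _) hn0.le
  obtain ⟨w, hsymm, hwb, hq⟩ := hweight V A hA (hn1.trans hη₀n) (fun X Y hXY hX hY =>
    ⟨hd X Y hXY (hη₀n.trans hX) (hη₀n.trans hY), by
      rw [adjCount, one_mul, ← nsmul_eq_mul, ← sum_const]
      exact sum_le_sum fun x _ => Nat.cast_le.mpr (card_le_card (filter_subset _ _))⟩)
  have hwl : ∀ x y, 1 / 1 ≤ w x y := fun x y => (hwb x y).1
  have hw0 : ∀ x y, 0 ≤ w x y ∧ w x y ≤ 1 / γ := fun x y =>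
    ⟨le_trans (by norm_num) (hwl x y), (hwb x y).2⟩
  obtain ⟨f, hf, hlt, hmax⟩ := exists_weighted_median (arcWeight A w)
  have hθn : 1 ≤ θ * n := hn1.trans (mul_le_mul_of_nonneg_right (min_le_right _ _) hn0.le)
  have hKδ : (K : ℝ) * δ ≤ θ := by
    rw [hδ, mul_div_assoc', div_le_iff₀ (by positivity)]
    nlinarith [mul_le_mul_of_nonneg_left hζ1 (mul_nonneg (Nat.cast_nonneg K) hθ0.le)]
  have hδbad : ((K : ℝ) + 1) * (δ / θ) ≤ ζ / 2 := by
    rw [hδ]
    apply le_of_eq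
    field_simp
  obtain ⟨L, hL, hLv⟩ := exists_late A w γ δ θ ζ K hγ hγ1 hK0 hθ0 hK hθn hζ1 hδbad hw0 hq f hf
  have hLne : L.Nonempty := by
    rw [← card_pos]
    have : (0 : ℝ) < L.card := lt_of_lt_of_le (mul_pos (half_pos hζ0) hn0) hL
    exact_mod_cast this
  obtain ⟨v, hv⟩ := hLne
  obtain ⟨hvlate, hvint⟩ := hLv v hv
  have hcore := core A hA w γ 1 δ θ ζ ζ K hγ hγ1 hζ0 hζ1 one_pos le_rfl hK0
    le_rfl hθn hK hKδ le_rfl hsymm hwl (fun x y => (hwb x y).2) hq f hf hlt hmax v hvlate hvint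
    (unreached A v) ∅ subset_rfl
    (by simp only [sdiff_self, bot_eq_empty, card_empty, Nat.cast_zero]; positivity)
    (fun y hy => absurd hy (notMem_empty y))
    (fun r _ => by simp only [filter_empty, card_empty, Nat.cast_zero]; positivity)
  refine ⟨v, ?_⟩
  simp only [card_empty, Nat.cast_zero, mul_zero, add_zero] at hcore
  have : 15 * ζ * n ≤ ε * n := mul_le_mul_of_nonneg_right (by simp only [hζ]; linarith) hn0.le
  linarith

end Vale.Agent.P038.Dense
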