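import Mathlib

/-!
Weighted median orders and sampling.
-/

namespace Vale.Agent.P038.Dense

open Finset

variable {V : Type} [Fintype V]

open scoped Classical in
/-- Weight of the forward arcs. -/
noncomputable def forwardWeight (c : V → V → ℝ) (f : V → ℕ) : ℝ :=
  ∑ x, ∑ y, if f x < f y then c x y else 0

/-- An order by ranks maximising the forward weight. -/
lemma exists_weighted_median (c : V → V → ℝ) :
    ∃ f : V → ℕ, Function.Injective f ∧ (∀ x, f x < Fintype.card V) ∧
      ∀ g : V → ℕ, Function.Injective g → forwardWeight c g ≤ forwardWeight c f := by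
  classical
  obtain ⟨e, -, he⟩ := (univ : Finset (V ≃ Fin (Fintype.card V))).exists_max_image
    (fun e => forwardWeight c (fun x => (e x : ℕ))) ⟨Fintype.equivFin V, mem_univ _⟩
  refine ⟨fun x => (e x : ℕ), Fin.val_injective.comp e.injective, fun x => (e x).isLt,
    fun g hg => ?_⟩
  let r : V → Fin (Fintype.card V) := fun x =>
    ⟨(univ.filter fun u => g u < g x).card, card_lt_univ_of_notMem (x := x) (by simp)⟩
  have hiff : ∀ x y, (r x : ℕ) < r y ↔ g x < g y := by
    intro x y
    constructor
    · intro h
      by_contra h'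
      have : (r y : ℕ) ≤ r x := card_le_card fun u hu => by
        simp only [mem_filter, mem_univ, true_and] at hu ⊢
        omega
      omega
    · intro h
      refine card_lt_card ⟨fun u hu => ?_, fun hsub => ?_⟩
      · simp only [mem_filter, mem_univ, true_and] at hu ⊢
        omega
      · have := hsub (mem_filter.mpr ⟨mem_univ x, h⟩)
        simp at this
  have hr : Function.Injective r := by
    intro x y h
    apply hg
    rcases lt_trichotomy (g x) (g y) with h' | h' | h'
    · exact absurd (congrArg Fin.val h) (ne_of_lt ((hiff x y).mpr h'))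
    · exact h'
    · exact absurd (congrArg Fin.val h).symm (ne_of_lt ((hiff y x).mpr h'))
  let e' := Equiv.ofBijective r
    ((Fintype.bijective_iff_injective_and_card r).mpr ⟨hr, by simp⟩)
  refine le_trans (le_of_eq ?_) (he e' (mem_univ _))
  unfold forwardWeight
  refine sum_congr rfl fun x _ => sum_congr rfl fun y _ => ?_
  simp only [e', Equiv.ofBijective_apply, hiff]

open scoped Classical in
/-- The block move inequality for weighted median orders. -/
lemma weighted_block_move (c : V → V → ℝ) (f : V → ℕ) (hf : Function.Injective f)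
    (hmax : ∀ g : V → ℕ, Function.Injective g → forwardWeight c g ≤ forwardWeight c f)
    (S : Finset V) (s : ℕ) :
    ∑ b ∈ S.filter (fun b => s ≤ f b),
      ∑ u ∈ univ.filter (fun u => u ∉ S ∧ s ≤ f u ∧ f u < f b), c b u ≤
    ∑ b ∈ S.filter (fun b => s ≤ f b),
      ∑ u ∈ univ.filter (fun u => u ∉ S ∧ s ≤ f u ∧ f u < f b), c u b := by
  classical
  let C : ℕ := ∑ x, f x + 1
  have hC : ∀ x, f x < C := fun x =>
    Nat.lt_succ_of_le (Finset.single_le_sum (fun y _ => Nat.zero_le (f y)) (mem_univ x))
  let cls : V → ℕ := fun x => if f x < s then 0 else if x ∈ S then 1 else 2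
  let g : V → ℕ := fun x => cls x * C + f x
  have hg_lt : ∀ x y, g x < g y ↔ cls x < cls y ∨ (cls x = cls y ∧ f x < f y) := by
    intro x y
    have hx := hC x
    have hy := hC y
    simp only [g]
    constructor
    · intro h
      rcases lt_trichotomy (cls x) (cls y) with h1 | h1 | h1
      · exact Or.inl h1
      · rw [h1] at h
        exact Or.inr ⟨h1, by omega⟩
      · exfalso
        have : (cls y + 1) * C ≤ cls x * C := Nat.mul_le_mul_right C h1
        rw [add_mul, one_mul] at this
        omega
    · rintro (h1 | ⟨h1, h2⟩)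
      · have : (cls x + 1) * C ≤ cls y * C := Nat.mul_le_mul_right C h1
        rw [add_mul, one_mul] at this
        omega
      · rw [h1]; omega
  have hg : Function.Injective g := by
    intro x y h
    by_contra hne
    have hne' : f x ≠ f y := fun e => hne (hf e)
    rcases lt_trichotomy (cls x) (cls y) with h1 | h1 | h1
    · exact absurd h (ne_of_lt ((hg_lt x y).mpr (Or.inl h1)))
    · rcases lt_or_gt_of_ne hne' with h2 | h2
      · exact absurd h (ne_of_lt ((hg_lt x y).mpr (Or.inr ⟨h1, h2⟩)))
      · exact absurd h.symm (ne_of_lt ((hg_lt y x).mpr (Or.inr ⟨h1.symm, h2⟩)))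
    · exact absurd h.symm (ne_of_lt ((hg_lt y x).mpr (Or.inl h1)))
  let Q : V → V → Prop := fun b u => (b ∈ S ∧ s ≤ f b) ∧ u ∉ S ∧ s ≤ f u ∧ f u < f b
  have key : ∀ x y, (if g x < g y then c x y else 0) = (if f x < f y then c x y else 0)
      + (if Q x y then c x y else 0) - (if Q y x then c x y else 0) := by
    intro x y
    by_cases hxy : x = y
    · subst hxy
      simp [Q]
    have hne : f x ≠ f y := fun e => hxy (hf e)
    have hiff : g x < g y ↔ (f x < f y ∧ ¬ Q y x) ∨ Q x y := by
      rw [hg_lt]
      simp only [cls, Q]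
      by_cases hx : x ∈ S <;> by_cases hy : y ∈ S <;> simp only [hx, hy, if_true, if_false,
        not_true_eq_false, not_false_eq_true, true_and, false_and, and_false, and_true, or_false] <;>
        split_ifs <;> omega
    by_cases h1 : Q x y
    · have h2 : ¬ Q y x := fun h => h.2.1 h1.1.1
      have h3 : ¬ f x < f y := by have := h1.2.2.2; omega
      simp [hiff, h1, h2, h3]
    · by_cases h2 : Q y x
      · have h3 : f x < f y := h2.2.2.2
        simp [hiff, h1, h2, h3]
      · simp [hiff, h1, h2]
  have h := hmax g hg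
  unfold forwardWeight at h
  simp only [key, sum_sub_distrib, sum_add_distrib] at h
  have e1 : ∑ x, ∑ y, (if Q x y then c x y else 0) = ∑ b ∈ S.filter (fun b => s ≤ f b),
      ∑ u ∈ univ.filter (fun u => u ∉ S ∧ s ≤ f u ∧ f u < f b), c b u := by
    rw [show S.filter (fun b => s ≤ f b) = univ.filter (fun b => b ∈ S ∧ s ≤ f b) by ext; simp,
      sum_filter]
    refine sum_congr rfl fun b _ => ?_
    by_cases hb : b ∈ S ∧ s ≤ f b <;> simp [Q, hb, sum_filter]
  have e2 : ∑ x, ∑ y, (if Q y x then c x y else 0) = ∑ b ∈ S.filter (fun b => s ≤ f b),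
      ∑ u ∈ univ.filter (fun u => u ∉ S ∧ s ≤ f u ∧ f u < f b), c u b := by
    rw [show S.filter (fun b => s ≤ f b) = univ.filter (fun b => b ∈ S ∧ s ≤ f b) by ext; simp,
      sum_filter, sum_comm]
    refine sum_congr rfl fun b _ => ?_
    by_cases hb : b ∈ S ∧ s ≤ f b <;> simp [Q, hb, sum_filter]
  rw [e1, e2] at h
  linarith

omit [Fintype V] in
/-- The upper part of a finite set, of prescribed size at least. -/
lemma top_card (f : V → ℕ) (s : Finset V) (c : ℝ) (hc : c ≤ s.card) :
    c ≤ ((s.filter fun x => ((s.filter fun y => f x < f y).card : ℝ) < c).card : ℝ) := by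
  classical
  set T := s.filter fun x => ((s.filter fun y => f x < f y).card : ℝ) < c
  by_cases h : s ⊆ T
  · exact hc.trans (by exact_mod_cast card_le_card h)
  · obtain ⟨x, hx, hxmax⟩ := (s \ T).exists_max_image f
      (by rwa [Finset.nonempty_iff_ne_empty, ne_eq, sdiff_eq_empty_iff_subset])
    obtain ⟨hxs, hxT⟩ := mem_sdiff.mp hx
    have hbig : c ≤ ((s.filter fun y => f x < f y).card : ℝ) := by
      by_contra h'
      exact hxT (mem_filter.mpr ⟨hxs, not_le.mp h'⟩)
    refine hbig.trans ?_
    exact_mod_cast card_le_card fun y hy => by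
      obtain ⟨hys, hlt⟩ := mem_filter.mp hy
      by_contra hyT
      have := hxmax y (mem_sdiff.mpr ⟨hys, hyT⟩)
      omega

/-- Second moment of a sum of independent samples of a function with mean zero. -/
lemma sample_moment (g : V → ℝ) (hg : ∑ z, g z = 0) (m : ℕ) :
    ∑ s : Fin m → V, (∑ i, g (s i)) = 0 ∧
    (Fintype.card V : ℝ) * ∑ s : Fin m → V, (∑ i, g (s i)) ^ 2
      = m * (Fintype.card V : ℝ) ^ m * ∑ z, g z ^ 2 := by
  induction m with
  | zero => simp
  | succ m ih =>
    obtain ⟨ih1, ih2⟩ := ih
    constructor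
    · rw [← Equiv.sum_comp (Fin.consEquiv fun _ => V), Fintype.sum_prod_type]
      simp [Fin.sum_univ_succ, sum_add_distrib, ih1, ← mul_sum, hg]
    · rw [← Equiv.sum_comp (Fin.consEquiv fun _ => V), Fintype.sum_prod_type]
      simp only [Fin.consEquiv_apply, Fin.sum_univ_succ, Fin.cons_zero, Fin.cons_succ, add_sq,
        sum_add_distrib, ← mul_sum, ih1, mul_zero, add_zero]
      simp only [sum_const, card_univ, nsmul_eq_mul, Fintype.card_fun, Fintype.card_fin,
        Nat.cast_pow, ← mul_sum]
      rw [pow_succ]
      push_cast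
      linear_combination (Fintype.card V : ℝ) * ih2

/-- Some sample estimates all given indicator means well on average. -/
lemma exists_sample {ι : Type} [Nonempty V] (L : Finset ι) (P : ι → V → Prop) (m : ℕ)
    [∀ j, DecidablePred (P j)] (hm : 0 < m) :
    ∃ s : Fin m → V, ∑ j ∈ L,
      (((univ.filter fun i => P j (s i)).card : ℝ) / m
        - ((univ.filter fun z => P j z).card : ℝ) / Fintype.card V) ^ 2 ≤ L.card / m := by
  set n : ℝ := (Fintype.card V : ℝ) with hn
  have hn0 : 0 < n := by rw [hn]; exact_mod_cast Fintype.card_pos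
  have hm0 : (0 : ℝ) < m := by exact_mod_cast hm
  obtain ⟨s, -, hs⟩ := exists_le_of_sum_le (s := (univ : Finset (Fin m → V))) univ_nonempty
    (f := fun s => ∑ j ∈ L, (((univ.filter fun i => P j (s i)).card : ℝ) / m
        - ((univ.filter fun z => P j z).card : ℝ) / n) ^ 2)
    (g := fun _ => (L.card : ℝ) / m) (by
      rw [sum_comm, sum_const, card_univ, Fintype.card_fun, Fintype.card_fin, nsmul_eq_mul]
      push_cast
      calc _ ≤ ∑ _j ∈ L, n ^ m / m := sum_le_sum fun j _ => ?_
        _ = _ := by rw [sum_const, nsmul_eq_mul]; ring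
      let c : ℝ := ((univ.filter fun z => P j z).card : ℝ) / n
      let g : V → ℝ := fun z => (if P j z then 1 else 0) - c
      have hg : ∑ z, g z = 0 := by
        simp only [g, c, sum_sub_distrib, sum_boole, sum_const, card_univ, nsmul_eq_mul, ← hn]
        field_simp
        ring
      have hc : 0 ≤ c ∧ c ≤ 1 := by
        refine ⟨by positivity, (div_le_one hn0).mpr ?_⟩
        rw [hn]; exact_mod_cast card_le_univ _
      have hg2 : ∑ z, g z ^ 2 ≤ n := by
        calc _ ≤ ∑ _z : V, (1 : ℝ) := sum_le_sum fun z _ => by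
              simp only [g]; split_ifs <;> nlinarith [hc.1, hc.2]
          _ = n := by simp [hn]
      have h := (sample_moment g hg m).2
      rw [← hn] at h
      have h' : ∑ s : Fin m → V, (∑ i, g (s i)) ^ 2 ≤ m * n ^ m := by
        have : n * ∑ s : Fin m → V, (∑ i, g (s i)) ^ 2 ≤ n * (m * n ^ m) := by
          rw [h]
          nlinarith [mul_le_mul_of_nonneg_left hg2 (by positivity : (0 : ℝ) ≤ m * n ^ m)]
        exact le_of_mul_le_mul_left this hn0
      have e : ∀ s : Fin m → V, (((univ.filter fun i => P j (s i)).card : ℝ) / m - c) ^ 2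
          = (∑ i, g (s i)) ^ 2 / (m : ℝ) ^ 2 := by
        intro s
        simp only [g, sum_sub_distrib, sum_boole, sum_const, card_univ, Fintype.card_fin,
          nsmul_eq_mul]
        field_simp
      rw [sum_congr rfl fun s _ => e s, ← sum_div, div_le_div_iff₀ (by positivity) hm0]
      nlinarith [mul_le_mul_of_nonneg_right h' hm0.le])
  exact ⟨s, hs⟩

end Vale.Agent.P038.Dense
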