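import Vale.Agent.P038.DenseWeight
import Vale.Agent.P038.DenseOrder

/-!
A late vertex of a weighted median order of a graph with pseudorandom weights.
-/

namespace Vale.Agent.P038.Dense

open Finset

variable {V : Type} [Fintype V]

open scoped Classical in
/-- Weight of an arc. -/
noncomputable def arcWeight (A : V → V → Prop) (w : V → V → ℝ) (x y : V) : ℝ :=
  if A x y then w x y else 0

open scoped Classical in
/-- Ordered pairs between two sets. -/
lemma ordered_dev (u : V → V → ℝ) (B δ : ℝ) (hB : 0 ≤ B) (hu : ∀ x y, |u x y| ≤ B) [Nonempty V]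
    (hq : ∀ X Y : Finset V, |∑ x ∈ X, ∑ y ∈ Y, u x y| ≤ δ * (Fintype.card V : ℝ) ^ 2)
    (f : V → ℕ) (hf : Function.Injective f) (hlt : ∀ x, f x < Fintype.card V)
    (K : ℕ) (hK : 0 < K) (X Y : Finset V) :
    |∑ x ∈ X, ∑ y ∈ Y.filter (fun y => f y < f x), u x y|
      ≤ K * δ * (Fintype.card V : ℝ) ^ 2
        + B * (((Fintype.card V : ℝ) / K + 1) * Fintype.card V) := by
  classical
  set n : ℕ := Fintype.card V with hn
  have hn0 : 0 < n := by rw [hn]; exact Fintype.card_pos
  let q : V → ℕ := fun x => f x * K / n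
  have hqK : ∀ x, q x < K := fun x => by
    simp only [q]
    rw [Nat.div_lt_iff_lt_mul hn0, mul_comm K]
    exact Nat.mul_lt_mul_of_pos_right (hlt x) hK
  have hmono : ∀ x y, q y < q x → f y < f x := by
    intro x y h
    by_contra h'
    have : q x ≤ q y := Nat.div_le_div_right (Nat.mul_le_mul_right K (not_lt.mp h'))
    omega
  have hsplit : ∀ x, ∑ y ∈ Y.filter (fun y => f y < f x), u x y
      = ∑ y ∈ Y.filter (fun y => q y < q x), u x y
        + ∑ y ∈ Y.filter (fun y => f y < f x ∧ ¬ q y < q x), u x y := by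
    intro x
    rw [← sum_filter_add_sum_filter_not (Y.filter fun y => f y < f x) (fun y => q y < q x),
      filter_filter, filter_filter]
    congr 2
    ext y
    simp only [mem_filter]
    exact ⟨fun h => ⟨h.1, h.2.2⟩, fun h => ⟨h.1, hmono x y h.2, h.2⟩⟩
  rw [sum_congr rfl fun x _ => hsplit x, sum_add_distrib]
  refine (abs_add_le _ _).trans (add_le_add ?_ ?_)
  · have e : ∑ x ∈ X, ∑ y ∈ Y.filter (fun y => q y < q x), u x y
        = ∑ i ∈ range K, ∑ x ∈ X.filter (fun x => q x = i),
            ∑ y ∈ Y.filter (fun y => q y < i), u x y := by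
      rw [← sum_fiberwise_of_maps_to (fun x _ => mem_range.mpr (hqK x))]
      refine sum_congr rfl fun i _ => sum_congr rfl fun x hx => ?_
      rw [(mem_filter.mp hx).2]
    rw [e]
    refine (abs_sum_le_sum_abs _ _).trans ?_
    calc _ ≤ ∑ _i ∈ range K, δ * (n : ℝ) ^ 2 :=
          sum_le_sum fun i _ => hq (X.filter fun x => q x = i) (Y.filter fun y => q y < i)
      _ = _ := by rw [sum_const, card_range, nsmul_eq_mul]; ring
  · refine (abs_sum_le_sum_abs _ _).trans ?_
    calc _ ≤ ∑ _x ∈ X, B * ((n : ℝ) / K + 1) := sum_le_sum fun x _ => ?_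
      _ ≤ _ := by
        rw [sum_const, nsmul_eq_mul]
        have hX : (X.card : ℝ) ≤ n := by exact_mod_cast card_le_univ X
        calc (X.card : ℝ) * (B * ((n : ℝ) / K + 1)) ≤ n * (B * ((n : ℝ) / K + 1)) :=
              mul_le_mul_of_nonneg_right hX (by positivity)
          _ = _ := by ring
    refine (abs_sum_le_sum_abs _ _).trans ?_
    refine (sum_le_sum fun y _ => hu x y).trans ?_
    rw [sum_const, nsmul_eq_mul, mul_comm]
    refine mul_le_mul_of_nonneg_left ?_ hB
    set T := Y.filter fun y => f y < f x ∧ ¬ q y < q x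
    have hT : T.card ≤ n / K + 1 := by
      rw [← card_image_of_injective T hf]
      refine (card_le_card (t := Finset.Ico (f x - (n / K + 1)) (f x)) ?_).trans (by simp; omega)
      intro k hk
      obtain ⟨y, hy, rfl⟩ := mem_image.mp hk
      obtain ⟨-, hyx, hqy⟩ := mem_filter.mp hy
      rw [mem_Ico]
      refine ⟨?_, hyx⟩
      by_contra hlo
      apply hqy
      simp only [q]
      rw [Nat.lt_iff_add_one_le, ← Nat.add_div_right _ hn0]
      refine Nat.div_le_div_right ?_
      have hnK : n ≤ (n / K + 1) * K := by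
        rw [mul_comm]; exact (Nat.lt_mul_div_succ n hK).le
      have : f y + (n / K + 1) ≤ f x := by omega
      calc f y * K + n ≤ f y * K + (n / K + 1) * K := by omega
        _ ≤ f x * K := by rw [← add_mul]; exact Nat.mul_le_mul_right K this
    calc (T.card : ℝ) ≤ ((n / K + 1 : ℕ) : ℝ) := by exact_mod_cast hT
      _ ≤ (n : ℝ) / K + 1 := by push_cast; gcongr; exact Nat.cast_div_le

open scoped Classical in
/-- Few vertices deviate on a fixed set. -/
lemma few_atypical (u : V → V → ℝ) (δ θ : ℝ) (hθ : 0 < θ) [Nonempty V]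
    (hq : ∀ X Y : Finset V, |∑ x ∈ X, ∑ y ∈ Y, u x y| ≤ δ * (Fintype.card V : ℝ) ^ 2)
    (Y : Finset V) :
    ((univ.filter fun x => θ * Fintype.card V < ∑ y ∈ Y, u x y).card : ℝ)
      ≤ δ / θ * Fintype.card V := by
  set n : ℝ := (Fintype.card V : ℝ) with hn
  have hn0 : 0 < n := by rw [hn]; exact_mod_cast Fintype.card_pos
  set B := univ.filter fun x => θ * n < ∑ y ∈ Y, u x y
  have h1 : (B.card : ℝ) * (θ * n) ≤ ∑ x ∈ B, ∑ y ∈ Y, u x y := by
    rw [← nsmul_eq_mul]
    exact card_nsmul_le_sum B _ _ fun x hx => (mem_filter.mp hx).2.le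
  have h2 := (abs_le.mp (hq B Y)).2
  rw [div_mul_eq_mul_div, le_div_iff₀ hθ]
  exact le_of_mul_le_mul_right (by nlinarith : (B.card : ℝ) * θ * n ≤ δ * n * n) hn0

open scoped Classical in
/-- Weighted adjacency sums split by direction. -/
lemma adj_split (A : V → V → Prop) (hA : ∀ u v, A u v → ¬ A v u) (w : V → V → ℝ)
    (hsymm : ∀ x y, w x y = w y x) (x : V) (T : Finset V) :
    ∑ y ∈ T, dev A w x y
      = ∑ y ∈ T, arcWeight A w x y + ∑ y ∈ T, arcWeight A w y x - T.card := by
  have e : ∀ y, dev A w x y = arcWeight A w x y + arcWeight A w y x - 1 := by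
    intro y
    unfold dev arcWeight Joined
    by_cases h1 : A x y
    · simp [h1, hA x y h1]
    · by_cases h2 : A y x <;> simp [h1, h2, hsymm x y]
  simp only [e, sum_sub_distrib, sum_add_distrib, sum_const, nsmul_eq_mul, mul_one]

open scoped Classical in
/-- Before some point `b`, the set `U` is not ahead of `Z`. -/
lemma exists_cut [Nonempty V] (A : V → V → Prop) (hA : ∀ u v, A u v → ¬ A v u)
    (w : V → V → ℝ) (γ δ θ ζ : ℝ) (K : ℕ) (hK : 0 < K) (hγ : 0 < γ) (hγ1 : γ ≤ 1) (hζ : 0 < ζ)
    (hθ : θ ≤ ζ ^ 2 * γ) (hθn : 1 ≤ θ * Fintype.card V)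
    (hK1 : 1 ≤ θ * K) (hKδ : K * δ ≤ θ)
    (hsymm : ∀ x y, w x y = w y x) (hw : ∀ x y, 0 ≤ w x y ∧ w x y ≤ 1 / γ)
    (hq : ∀ X Y : Finset V, |∑ x ∈ X, ∑ y ∈ Y, dev A w x y| ≤ δ * (Fintype.card V : ℝ) ^ 2)
    (f : V → ℕ) (hf : Function.Injective f) (hlt : ∀ x, f x < Fintype.card V)
    (hmax : ∀ g : V → ℕ, Function.Injective g →
      forwardWeight (arcWeight A w) g ≤ forwardWeight (arcWeight A w) f)
    (R' U Z : Finset V) (hU : ∀ x ∈ U, x ∉ R') (hZ : ∀ x, x ∈ Z ↔ x ∉ U ∧ x ∉ R')
    (hlose : ∀ r ∈ R', ((U.filter fun y => A y r).card : ℝ) ≤ θ * Fintype.card V) :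
    ∃ b : ℕ, b ≤ Fintype.card V ∧
      ((R'.filter fun r => b ≤ f r).card : ℝ) ≤ (4 * ζ + θ) * Fintype.card V ∧
      ((U.filter fun y => f y < b).card : ℝ)
        ≤ (Z.filter fun y => f y < b).card + 3 * ζ * Fintype.card V := by
  classical
  set n : ℝ := (Fintype.card V : ℝ) with hn
  have hn0 : 0 < n := by rw [hn]; exact_mod_cast Fintype.card_pos
  by_cases hsmall : (R'.card : ℝ) ≤ (4 * ζ + θ) * n
  · refine ⟨0, Nat.zero_le _, ?_, ?_⟩
    · simpa using hsmall
    · simp
      positivity
  have hB : (0 : ℝ) ≤ 1 / γ := by positivity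
  have hu : ∀ x y, |dev A w x y| ≤ 1 / γ := by
    intro x y
    have h1 : (1 : ℝ) ≤ 1 / γ := (one_le_div hγ).mpr hγ1
    have := hw x y
    unfold dev
    split_ifs <;> rw [abs_le] <;> constructor <;> linarith
  have harc : ∀ x y, 0 ≤ arcWeight A w x y ∧ arcWeight A w x y ≤ if A x y then 1 / γ else 0 := by
    intro x y
    unfold arcWeight
    split_ifs
    · exact hw x y
    · exact ⟨le_rfl, le_rfl⟩
  let F : ℕ → ℝ := fun t =>
    ((Z.filter fun y => f y < t).card : ℝ) - (U.filter fun y => f y < t).card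
  have hbetween : ∀ (W : Finset V) (t k : ℕ), t ≤ k →
      (((W.filter fun y => t ≤ f y).filter fun y => f y < k).card : ℝ)
        = (W.filter fun y => f y < k).card - (W.filter fun y => f y < t).card := by
    intro W t k htk
    rw [eq_sub_iff_add_eq, ← Nat.cast_add, ← card_union_of_disjoint]
    · congr 2
      ext y
      simp only [mem_union, mem_filter]
      by_cases hy : y ∈ W <;> simp only [hy, true_and, false_and, or_self] <;> omega
    · rw [disjoint_left]
      intro y h1 h2
      simp only [mem_filter] at h1 h2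
      omega
  have hineq : ∀ t : ℕ,
      -(10 * ζ ^ 2 * n ^ 2) ≤ ∑ r ∈ R'.filter (fun r => t ≤ f r), (F (f r) - F t) := by
    intro t
    set X := R'.filter fun r => t ≤ f r with hX
    set U₁ := U.filter fun y => t ≤ f y with hU₁
    set Z₁ := Z.filter fun y => t ≤ f y with hZ₁
    have hXn : (X.card : ℝ) ≤ n := by rw [hn]; exact_mod_cast card_le_univ X
    have hmove := weighted_block_move (arcWeight A w) f hf hmax R' t
    rw [← hX] at hmove
    have hsplitT : ∀ (g : V → ℝ) (r : V),
        ∑ y ∈ univ.filter (fun u => u ∉ R' ∧ t ≤ f u ∧ f u < f r), g y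
          = ∑ y ∈ U₁.filter (fun y => f y < f r), g y
            + ∑ y ∈ Z₁.filter (fun y => f y < f r), g y := by
      intro g r
      rw [← sum_union]
      · refine sum_congr ?_ fun _ _ => rfl
        ext y
        simp only [hU₁, hZ₁, mem_union, mem_filter, mem_univ, true_and, hZ]
        by_cases hyU : y ∈ U
        · simp [hyU, hU y hyU]
        · simp [hyU, and_assoc]
      · rw [disjoint_left]
        intro y h1 h2
        simp only [hU₁, hZ₁, mem_filter, hZ] at h1 h2
        exact h2.1.1.1 h1.1.1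
    have h1 : ∑ r ∈ X, (∑ y ∈ U₁.filter (fun y => f y < f r), dev A w r y
          - ∑ y ∈ Z₁.filter (fun y => f y < f r), dev A w r y
          + ((U₁.filter fun y => f y < f r).card : ℝ) - (Z₁.filter fun y => f y < f r).card)
        ≤ X.card * (2 * (1 / γ) * (θ * n)) := by
      have a1 : ∀ r ∈ X, ∑ y ∈ U₁.filter (fun y => f y < f r), dev A w r y
          - ∑ y ∈ Z₁.filter (fun y => f y < f r), dev A w r y
          + ((U₁.filter fun y => f y < f r).card : ℝ) - (Z₁.filter fun y => f y < f r).card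
          ≤ (∑ y ∈ univ.filter (fun u => u ∉ R' ∧ t ≤ f u ∧ f u < f r), arcWeight A w r y
            - ∑ y ∈ univ.filter (fun u => u ∉ R' ∧ t ≤ f u ∧ f u < f r), arcWeight A w y r)
            + 2 * (1 / γ) * (θ * n) := by
        intro r hr
        rw [adj_split A hA w hsymm, adj_split A hA w hsymm, hsplitT, hsplitT]
        have hlow : ∑ y ∈ U₁.filter (fun y => f y < f r), arcWeight A w y r
            ≤ (1 / γ) * (θ * n) := by
          refine (sum_le_sum fun y _ => (harc y r).2).trans ?_
          rw [← sum_filter, sum_const, nsmul_eq_mul, mul_comm]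
          refine mul_le_mul_of_nonneg_left ?_ hB
          refine le_trans (Nat.cast_le.mpr (card_le_card fun y hy => ?_))
            (hlose r (mem_filter.mp hr).1)
          simp only [hU₁, mem_filter] at hy ⊢
          exact ⟨hy.1.1.1, hy.2⟩
        have hnn : 0 ≤ ∑ y ∈ Z₁.filter (fun y => f y < f r), arcWeight A w r y :=
          sum_nonneg fun y _ => (harc r y).1
        linarith
      have s1 := sum_le_sum a1
      simp only [sum_add_distrib, sum_sub_distrib, sum_const, nsmul_eq_mul] at s1 ⊢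
      linarith
    have bU := (abs_le.mp (ordered_dev (dev A w) (1 / γ) δ hB hu hq f hf hlt K hK X U₁)).1
    have bZ := (abs_le.mp (ordered_dev (dev A w) (1 / γ) δ hB hu hq f hf hlt K hK X Z₁)).2
    have hθn' : 0 ≤ θ * n := by linarith
    have hθγ : θ / γ ≤ ζ ^ 2 := (div_le_iff₀ hγ).mpr hθ
    have hE : (K : ℝ) * δ * n ^ 2 + 1 / γ * ((n / K + 1) * n) ≤ 3 * ζ ^ 2 * n ^ 2 := by
      have hK0 : (0 : ℝ) < K := by exact_mod_cast hK
      have h' : n / K ≤ θ * n := by
        rw [div_le_iff₀ hK0]
        nlinarith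
      have e1 : 1 / γ * ((n / K + 1) * n) ≤ 2 * (θ / γ) * n ^ 2 := by
        rw [show 2 * (θ / γ) * n ^ 2 = 1 / γ * ((θ * n + θ * n) * n) by ring]
        exact mul_le_mul_of_nonneg_left (mul_le_mul_of_nonneg_right (add_le_add h' hθn) hn0.le) hB
      have hθ' : θ ≤ ζ ^ 2 := hθ.trans (by nlinarith [sq_nonneg ζ])
      nlinarith [mul_le_mul_of_nonneg_right (hKδ.trans hθ') (sq_nonneg n),
        mul_le_mul_of_nonneg_right hθγ (sq_nonneg n)]
    have h2 : (X.card : ℝ) * (2 * (1 / γ) * (θ * n)) ≤ 2 * ζ ^ 2 * n ^ 2 := by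
      refine (mul_le_mul_of_nonneg_right hXn (by positivity)).trans ?_
      rw [show n * (2 * (1 / γ) * (θ * n)) = 2 * (θ / γ) * n ^ 2 by ring]
      exact mul_le_mul_of_nonneg_right (by linarith) (sq_nonneg n)
    have key : ∑ r ∈ X, (F (f r) - F t)
        = ∑ r ∈ X, ((Z₁.filter fun y => f y < f r).card : ℝ)
          - ∑ r ∈ X, ((U₁.filter fun y => f y < f r).card : ℝ) := by
      rw [← sum_sub_distrib]
      refine sum_congr rfl fun r hr => ?_
      rw [hU₁, hZ₁, hbetween U t (f r) (mem_filter.mp hr).2,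
        hbetween Z t (f r) (mem_filter.mp hr).2]
      simp only [F]
      ring
    simp only [sum_sub_distrib, sum_add_distrib] at h1
    rw [key]
    linarith [mul_nonneg (sq_nonneg ζ) (sq_nonneg n)]
  have hcard : (4 * ζ + θ) * n ≤ (R'.card : ℝ) := (not_le.mp hsmall).le
  set T := R'.filter fun x =>
    ((R'.filter fun y => f x < f y).card : ℝ) < (4 * ζ + θ) * n - 1
  have hT : (4 * ζ + θ) * n - 1 ≤ (T.card : ℝ) := top_card f R' _ (by linarith)
  have hTne : T.Nonempty := by
    rw [← card_pos]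
    have : (0 : ℝ) < T.card := by nlinarith
    exact_mod_cast this
  obtain ⟨r₀, hr₀, hr₀min⟩ := T.exists_min_image f hTne
  obtain ⟨t, ht, htmax⟩ := (range (f r₀ + 1)).exists_max_image F ⟨0, by simp⟩
  have ht0 : 0 ≤ F t := by
    have := htmax 0 (by simp)
    simpa [F] using this
  by_contra hcon
  push Not at hcon
  have hlow : ∀ r ∈ T, F (f r) < -(3 * ζ * n) := by
    intro r hr
    obtain ⟨hrR, hrt⟩ := mem_filter.mp hr
    have hfew : ((R'.filter fun x => f r ≤ f x).card : ℝ) ≤ (4 * ζ + θ) * n := by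
      have : (R'.filter fun x => f r ≤ f x).card ≤ (R'.filter fun y => f r < f y).card + 1 := by
        refine (card_le_card (t := insert r (R'.filter fun y => f r < f y)) ?_).trans
          (card_insert_le _ _)
        intro x hx
        simp only [mem_filter, mem_insert] at hx ⊢
        rcases eq_or_lt_of_le hx.2 with h | h
        · exact Or.inl (hf h).symm
        · exact Or.inr ⟨hx.1, h⟩
      have h' : ((R'.filter fun x => f r ≤ f x).card : ℝ)
          ≤ (R'.filter fun y => f r < f y).card + 1 := by exact_mod_cast this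
      linarith
    have := hcon (f r) (hlt r).le hfew
    simp only [F]
    linarith
  have hsum := hineq t
  rw [← sum_filter_add_sum_filter_not _ (fun r => r ∈ T)] at hsum
  have e1 : (R'.filter fun r => t ≤ f r).filter (fun r => r ∈ T) = T := by
    ext r
    simp only [mem_filter]
    refine ⟨fun h => h.2, fun h => ⟨⟨(mem_filter.mp h).1, ?_⟩, h⟩⟩
    have := hr₀min r h
    simp only [mem_range] at ht
    omega
  have e2 : ∑ r ∈ (R'.filter fun r => t ≤ f r).filter (fun r => r ∉ T), (F (f r) - F t) ≤ 0 := by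
    refine sum_nonpos fun r hr => ?_
    simp only [mem_filter] at hr
    suffices f r ≤ f r₀ by
      have := htmax (f r) (mem_range.mpr (by omega))
      linarith
    by_contra hgt
    apply hr.2
    refine mem_filter.mpr ⟨hr.1.1, lt_of_le_of_lt ?_ (mem_filter.mp hr₀).2⟩
    exact_mod_cast card_le_card fun y hy => by
      simp only [mem_filter] at hy ⊢
      exact ⟨hy.1, by omega⟩
  rw [e1] at hsum
  have e3 : ∑ r ∈ T, (F (f r) - F t) ≤ (T.card : ℝ) * (-(3 * ζ * n)) := by
    rw [← nsmul_eq_mul]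
    exact sum_le_card_nsmul _ _ _ fun r hr => by linarith [hlow r hr]
  nlinarith [mul_le_mul_of_nonneg_right
    (show 4 * ζ * n ≤ (T.card : ℝ) by linarith) (by positivity : 0 ≤ 3 * ζ * n),
    mul_pos (mul_pos hζ hζ) (mul_pos hn0 hn0)]

open scoped Classical in
/-- Late vertices with pseudorandom intervals, all but few. -/
lemma exists_late [Nonempty V] (A : V → V → Prop) (w : V → V → ℝ) (γ δ θ μ : ℝ) (K : ℕ)
    (hγ : 0 < γ) (hγ1 : γ ≤ 1) (hK : 0 < K) (hθ0 : 0 < θ) (hK1 : 1 ≤ θ * K)
    (hθn : 1 ≤ θ * Fintype.card V) (hμ : μ ≤ 1)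
    (hδ : (K + 1) * (δ / θ) ≤ μ / 2)
    (hw : ∀ x y, 0 ≤ w x y ∧ w x y ≤ 1 / γ)
    (hq : ∀ X Y : Finset V, |∑ x ∈ X, ∑ y ∈ Y, dev A w x y| ≤ δ * (Fintype.card V : ℝ) ^ 2)
    (f : V → ℕ) (hf : Function.Injective f) :
    ∃ L : Finset V, μ / 2 * Fintype.card V ≤ L.card ∧ ∀ v ∈ L,
      ((univ.filter fun y => f v < f y).card : ℝ) < μ * Fintype.card V ∧
      ∀ b ≤ Fintype.card V, ∑ y ∈ univ.filter (fun y => b ≤ f y), dev A w v y
        ≤ (θ + 2 * θ / γ) * Fintype.card V := by
  set n : ℕ := Fintype.card V with hn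
  have hn0 : 0 < n := by rw [hn]; exact Fintype.card_pos
  set L₀ := (univ : Finset V).filter fun x =>
    (((univ : Finset V).filter fun y => f x < f y).card : ℝ) < μ * n with hL₀
  have hL : μ * n ≤ L₀.card := top_card f univ _ (by
    rw [card_univ, ← hn]
    have : (0 : ℝ) ≤ n := Nat.cast_nonneg n
    nlinarith)
  let cutp : ℕ → ℕ := fun j => (j * n + K - 1) / K
  set bad := (range (K + 1)).biUnion fun j => univ.filter fun x =>
    θ * n < ∑ y ∈ univ.filter (fun y => cutp j ≤ f y), dev A w x y with hbad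
  refine ⟨L₀ \ bad, ?_, fun v hv => ⟨(mem_filter.mp (mem_sdiff.mp hv).1).2, fun b hb => ?_⟩⟩
  · have h1 : (bad.card : ℝ) ≤ (K + 1) * (δ / θ * n) := by
      refine (Nat.cast_le.mpr card_biUnion_le).trans ?_
      rw [Nat.cast_sum]
      refine (sum_le_card_nsmul _ _ (δ / θ * n) fun j _ => ?_).trans (le_of_eq ?_)
      · exact few_atypical (dev A w) δ θ hθ0 hq _
      · rw [card_range, nsmul_eq_mul]; push_cast; ring
    have h2 : (L₀.card : ℝ) ≤ (L₀ \ bad).card + bad.card := by
      exact_mod_cast card_le_card_sdiff_add_card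
    nlinarith [mul_le_mul_of_nonneg_right hδ (Nat.cast_nonneg n : (0 : ℝ) ≤ n)]
  · set j := b * K / n with hj
    have hjK : j ≤ K := by
      rw [hj]
      exact Nat.div_le_of_le_mul (Nat.mul_le_mul_right K hb)
    have hj1 : j * n ≤ b * K := Nat.div_mul_le_self _ _
    have hj2 : b * K < n * (j + 1) := Nat.lt_mul_div_succ _ hn0
    have hcj : cutp j ≤ b := by
      simp only [cutp]
      rw [← Nat.lt_succ_iff, Nat.div_lt_iff_lt_mul hK, Nat.succ_mul]
      omega
    have hbc : b ≤ cutp j + (n / K + 1) := by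
      have h3 : j * n ≤ K * cutp j := by
        simp only [cutp]
        have := Nat.lt_mul_div_succ (j * n + K - 1) hK
        rw [Nat.mul_succ] at this
        omega
      have h4 : n ≤ K * (n / K + 1) := (Nat.lt_mul_div_succ n hK).le
      refine le_of_mul_le_mul_left (a := K) ?_ hK
      rw [mul_add, mul_comm K b]
      rw [mul_add, mul_one, mul_comm n j] at hj2
      omega
    have hgood : ∑ y ∈ univ.filter (fun y => cutp j ≤ f y), dev A w v y ≤ θ * n := by
      by_contra h
      exact (mem_sdiff.mp hv).2 (mem_biUnion.mpr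
        ⟨j, mem_range.mpr (by omega), mem_filter.mpr ⟨mem_univ v, not_le.mp h⟩⟩)
    set G := univ.filter fun y => cutp j ≤ f y ∧ f y < b with hG
    have hG' : (G.card : ℝ) ≤ 2 * θ * n := by
      have h5 : G.card ≤ n / K + 1 := by
        rw [← card_image_of_injective G hf]
        refine (card_le_card (t := Finset.Ico (cutp j) b) ?_).trans (by simp; omega)
        intro k hk
        obtain ⟨y, hy, rfl⟩ := mem_image.mp hk
        simp only [hG, mem_filter] at hy
        exact mem_Ico.mpr hy.2
      have h5' : (G.card : ℝ) ≤ (n : ℝ) / K + 1 := by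
        refine (Nat.cast_le.mpr h5).trans ?_
        push_cast
        gcongr
        exact Nat.cast_div_le
      have : (n : ℝ) / K ≤ θ * n := by
        rw [div_le_iff₀ (by exact_mod_cast hK)]
        nlinarith [Nat.cast_nonneg (α := ℝ) n]
      linarith
    have hsum : ∑ y ∈ univ.filter (fun y => cutp j ≤ f y), dev A w v y
        = ∑ y ∈ univ.filter (fun y => b ≤ f y), dev A w v y + ∑ y ∈ G, dev A w v y := by
      rw [← sum_union]
      · refine sum_congr ?_ fun _ _ => rfl
        ext y
        simp only [hG, mem_union, mem_filter, mem_univ, true_and]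
        omega
      · rw [disjoint_left]
        intro y h1 h2
        simp only [hG, mem_filter] at h1 h2
        omega
    have hlow : -(G.card : ℝ) ≤ ∑ y ∈ G, dev A w v y := by
      have := card_nsmul_le_sum G (fun y => dev A w v y) (-1) (fun y _ => by
        unfold dev
        have := (hw v y).1
        split_ifs <;> linarith)
      simpa using this
    have h6 : 2 * θ * n ≤ 2 * θ / γ * n := by
      refine mul_le_mul_of_nonneg_right ?_ (Nat.cast_nonneg n)
      rw [le_div_iff₀ hγ]
      nlinarith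
    linarith

end Vale.Agent.P038.Dense
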