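import Vale.Agent.P038.DenseCore

/-!
The second neighbourhood inequality, with error term, for a late vertex.
-/

namespace Vale.Agent.P038.Dense

open Finset

variable {V : Type} [Fintype V]

open scoped Classical in
/-- The vertices not reached from `v` by one or two arcs. -/
noncomputable def unreached (A : V → V → Prop) (v : V) : Finset V :=
  univ.filter fun r => r ≠ v ∧ ¬ A v r ∧ ¬ ∃ u, A v u ∧ A u r

open scoped Classical in
/-- Out-neighbours in `Finset` form. -/
noncomputable def firstNbrs (A : V → V → Prop) (v : V) : Finset V :=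
  univ.filter fun x => A v x

open scoped Classical in
/-- Second out-neighbours in `Finset` form. -/
noncomputable def secondNbrs (A : V → V → Prop) (v : V) : Finset V :=
  univ.filter fun x => x ≠ v ∧ ¬ A v x ∧ ∃ u, A v u ∧ A u x

open scoped Classical in
/-- The part of a weighted median order after `b`, seen from a late vertex. -/
lemma post_part (A : V → V → Prop) (hA : ∀ u v, A u v → ¬ A v u)
    (w : V → V → ℝ) (ub τ μ : ℝ) (hub : 0 < ub) (hub1 : ub ≤ 1) (hτ : 0 ≤ τ)
    (hsymm : ∀ x y, w x y = w y x) (hw : ∀ x y, 1 / ub ≤ w x y)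
    (f : V → ℕ) (hf : Function.Injective f)
    (hmax : ∀ g : V → ℕ, Function.Injective g →
      forwardWeight (arcWeight A w) g ≤ forwardWeight (arcWeight A w) f)
    (v : V) (b : ℕ)
    (hv : ((univ.filter fun y => f v < f y).card : ℝ) < μ * Fintype.card V)
    (hint : ∑ y ∈ univ.filter (fun y => b ≤ f y), dev A w v y ≤ τ * Fintype.card V) :
    2 * (((firstNbrs A v).filter fun x => b ≤ f x).card : ℝ)
      ≤ ub * ((univ.filter fun x => b ≤ f x).card : ℝ) + (τ + 2 * μ) * Fintype.card V := by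
  set n : ℝ := (Fintype.card V : ℝ) with hn
  have hn0 : 0 ≤ n := by rw [hn]; exact Nat.cast_nonneg _
  have hw0 : ∀ x y, 0 ≤ arcWeight A w x y := by
    intro x y
    unfold arcWeight
    split_ifs
    · exact le_trans (by positivity) (hw x y)
    · exact le_rfl
  set P := univ.filter fun x => b ≤ f x with hP
  set Q := univ.filter fun x => b ≤ f x ∧ f x < f v with hQ
  have hP0 : (0 : ℝ) ≤ P.card := Nat.cast_nonneg _
  have hPn : 0 ≤ ub * P.card + (τ + 2 * μ) * n - 2 * ((univ.filter fun y => f v < f y).card : ℝ)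
      := by nlinarith [mul_nonneg hub.le hP0, mul_nonneg hτ hn0]
  have hsub : ((firstNbrs A v).filter fun x => b ≤ f x).card
      ≤ (Q.filter (A v)).card + (univ.filter fun y => f v < f y).card := by
    refine (card_le_card fun x hx => ?_).trans (card_union_le _ _)
    simp only [hQ, firstNbrs, mem_union, mem_filter, mem_univ, true_and] at hx ⊢
    rcases lt_trichotomy (f x) (f v) with h | h | h
    · exact Or.inl ⟨⟨hx.2, h⟩, hx.1⟩
    · exact absurd (hf h ▸ hx.1) (fun h' => hA v v h' h')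
    · exact Or.inr h
  have hsub' : (((firstNbrs A v).filter fun x => b ≤ f x).card : ℝ)
      ≤ (Q.filter (A v)).card + (univ.filter fun y => f v < f y).card := by exact_mod_cast hsub
  by_cases hbv : b ≤ f v
  swap
  · have : Q.filter (A v) = ∅ := by
      rw [filter_eq_empty_iff]
      intro x hx
      simp only [hQ, mem_filter, mem_univ, true_and] at hx
      omega
    rw [this, card_empty, Nat.cast_zero] at hsub'
    linarith
  have hmove := weighted_block_move (arcWeight A w) f hf hmax {v} b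
  rw [show ({v} : Finset V).filter (fun x => b ≤ f x) = {v} by simp [filter_singleton, hbv],
    sum_singleton, sum_singleton] at hmove
  have hQset : univ.filter (fun u => u ∉ ({v} : Finset V) ∧ b ≤ f u ∧ f u < f v) = Q := by
    ext u
    simp only [hQ, mem_filter, mem_univ, true_and, mem_singleton]
    exact ⟨fun h => h.2, fun h => ⟨fun e => by rw [e] at h; omega, h⟩⟩
  rw [hQset] at hmove
  have hlow : ((Q.filter (A v)).card : ℝ) * (1 / ub) ≤ ∑ u ∈ Q, arcWeight A w v u := by
    rw [← nsmul_eq_mul, ← sum_const, sum_filter]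
    refine sum_le_sum fun u _ => ?_
    unfold arcWeight
    split_ifs
    · exact hw v u
    · exact le_rfl
  have hboth : ∑ u ∈ Q, arcWeight A w v u + ∑ u ∈ Q, arcWeight A w u v ≤ P.card + τ * n := by
    have h1 := adj_split A hA w hsymm v P
    have hQP : Q ⊆ P := fun u hu => by
      simp only [hQ, hP, mem_filter, mem_univ, true_and] at hu ⊢
      exact hu.1
    have h2 := sum_le_sum_of_subset_of_nonneg hQP (fun u _ _ => hw0 v u)
    have h3 := sum_le_sum_of_subset_of_nonneg hQP (fun u _ _ => hw0 u v)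
    linarith
  have h4 : 2 * ((Q.filter (A v)).card : ℝ) ≤ ub * (P.card + τ * n) := by
    have : 2 * (((Q.filter (A v)).card : ℝ) * (1 / ub)) ≤ P.card + τ * n := by linarith
    rw [mul_one_div, ← mul_div_assoc, div_le_iff₀ hub] at this
    linarith
  have h5 : ub * (τ * n) ≤ τ * n := mul_le_of_le_one_left (mul_nonneg hτ hn0) hub1
  linarith

open scoped Classical in
/-- The inequality for a late vertex `v`, a set `D` of non-neighbours of `v` and a set `R'` of
vertices unreached by `v` to which `D` sends few arcs. -/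
theorem core [Nonempty V] (A : V → V → Prop) (hA : ∀ u v, A u v → ¬ A v u) (w : V → V → ℝ)
    (γ ub δ θ ζ μ : ℝ) (K : ℕ) (hγ : 0 < γ) (hγ1 : γ ≤ 1) (hζ : 0 < ζ) (hζ1 : ζ ≤ 1)
    (hub : 0 < ub) (hub1 : ub ≤ 1) (hK : 0 < K) (hθ : θ ≤ ζ ^ 2 * γ)
    (hθn : 1 ≤ θ * Fintype.card V) (hK1 : 1 ≤ θ * K) (hKδ : K * δ ≤ θ) (hμ : μ ≤ ζ)
    (hsymm : ∀ x y, w x y = w y x) (hwl : ∀ x y, 1 / ub ≤ w x y) (hwu : ∀ x y, w x y ≤ 1 / γ)
    (hq : ∀ X Y : Finset V, |∑ x ∈ X, ∑ y ∈ Y, dev A w x y| ≤ δ * (Fintype.card V : ℝ) ^ 2)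
    (f : V → ℕ) (hf : Function.Injective f) (hlt : ∀ x, f x < Fintype.card V)
    (hmax : ∀ g : V → ℕ, Function.Injective g →
      forwardWeight (arcWeight A w) g ≤ forwardWeight (arcWeight A w) f)
    (v : V) (hv : ((univ.filter fun y => f v < f y).card : ℝ) < μ * Fintype.card V)
    (hint : ∀ b ≤ Fintype.card V, ∑ y ∈ univ.filter (fun y => b ≤ f y), dev A w v y
        ≤ (θ + 2 * θ / γ) * Fintype.card V)
    (R' D : Finset V) (hR' : R' ⊆ unreached A v)
    (hκ : ((unreached A v \ R').card : ℝ) ≤ ζ * Fintype.card V)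
    (hD : ∀ y ∈ D, ¬ Joined A v y ∧ y ∉ R')
    (hlose : ∀ r ∈ R', ((D.filter fun y => A y r).card : ℝ) ≤ θ * Fintype.card V) :
    ((firstNbrs A v).card : ℝ) + (1 - ub) * D.card
      ≤ (secondNbrs A v).card + 15 * ζ * Fintype.card V := by
  set n : ℝ := (Fintype.card V : ℝ) with hn
  have hn0 : 0 ≤ n := by rw [hn]; exact Nat.cast_nonneg _
  set N := firstNbrs A v with hN
  set U := N ∪ D with hUdef
  set Z := univ.filter fun x => x ∉ U ∧ x ∉ R' with hZdef
  have hNmem : ∀ x, x ∈ N ↔ A v x := fun x => by simp [hN, firstNbrs]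
  have hNR : ∀ x ∈ N, x ∉ R' := fun x hx hx' =>
    (mem_filter.mp (hR' hx')).2.2.1 ((hNmem x).mp hx)
  have hND : Disjoint N D := by
    rw [disjoint_left]
    exact fun x hx hx' => (hD x hx').1 (Or.inl ((hNmem x).mp hx))
  have hU : ∀ x ∈ U, x ∉ R' := fun x hx => (mem_union.mp hx).elim (hNR x) (fun h => (hD x h).2)
  have hloseU : ∀ r ∈ R', ((U.filter fun y => A y r).card : ℝ) ≤ θ * n := by
    intro r hr
    refine le_trans (Nat.cast_le.mpr (card_le_card fun y hy => ?_)) (hlose r hr)
    obtain ⟨hyU, hyr⟩ := mem_filter.mp hy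
    refine mem_filter.mpr ⟨(mem_union.mp hyU).resolve_left fun h => ?_, hyr⟩
    exact (mem_filter.mp (hR' hr)).2.2.2 ⟨y, (hNmem y).mp h, hyr⟩
  obtain ⟨b, hbn, hb1, hb2⟩ := exists_cut A hA w γ δ θ ζ K hK hγ hγ1 hζ hθ hθn hK1 hKδ hsymm
    (fun x y => ⟨le_trans (by positivity) (hwl x y), hwu x y⟩) hq f hf hlt hmax R' U Z hU
    (fun x => by simp [hZdef]) hloseU
  have hθγ : θ / γ ≤ ζ ^ 2 := (div_le_iff₀ hγ).mpr hθ
  have hζ2 : ζ ^ 2 ≤ ζ := by nlinarith
  have hθζ : θ ≤ ζ := hθ.trans (by nlinarith [sq_nonneg ζ])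
  have hθ0 : 0 ≤ θ := by
    have h := hθn
    by_contra h'
    nlinarith [not_le.mp h']
  have hτ : 0 ≤ θ + 2 * θ / γ := by positivity
  have hpost := post_part A hA w ub (θ + 2 * θ / γ) μ hub hub1 hτ hsymm hwl f hf hmax v b hv
    (hint b hbn)
  have hτ3 : (θ + 2 * θ / γ) * n ≤ 3 * ζ * n := by
    refine mul_le_mul_of_nonneg_right ?_ hn0
    rw [mul_div_assoc]
    linarith
  have hμn : μ * n ≤ ζ * n := mul_le_mul_of_nonneg_right hμ hn0
  have hθζn : θ * n ≤ ζ * n := mul_le_mul_of_nonneg_right hθζ hn0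
  have hsplit : ∀ W : Finset V, ((W.filter fun x => f x < b).card : ℝ)
      + (W.filter fun x => b ≤ f x).card = W.card := by
    intro W
    have := card_filter_add_card_filter_not (s := W) (fun x => f x < b)
    simp only [not_lt] at this
    exact_mod_cast this
  have hUN : ∀ (p : V → Prop) [DecidablePred p],
      ((U.filter p).card : ℝ) = (N.filter p).card + (D.filter p).card := by
    intro p _
    rw [hUdef, filter_union, card_union_of_disjoint (disjoint_filter_filter hND)]
    push_cast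
    rfl
  have hP : ((univ.filter fun x => b ≤ f x).card : ℝ) = (U.filter fun x => b ≤ f x).card
      + (R'.filter fun x => b ≤ f x).card + (Z.filter fun x => b ≤ f x).card := by
    rw [← Nat.cast_add, ← Nat.cast_add, ← card_union_of_disjoint, ← card_union_of_disjoint]
    · congr 2
      ext x
      simp only [mem_union, mem_filter, mem_univ, true_and, hZdef]
      tauto
    · rw [disjoint_left]
      intro x h1 h2
      simp only [mem_union, mem_filter, hZdef] at h1 h2
      tauto
    · rw [disjoint_left]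
      intro x h1 h2
      exact hU x (mem_filter.mp h1).1 (mem_filter.mp h2).1
  have hS : (D.card : ℝ) + Z.card
      ≤ (secondNbrs A v).card + (unreached A v \ R').card + 1 := by
    have hdis : Disjoint D Z := by
      rw [disjoint_left]
      exact fun x hx hx' => (mem_filter.mp hx').2.1 (mem_union_right _ hx)
    rw [← Nat.cast_add, ← card_union_of_disjoint hdis]
    have : (D ∪ Z).card ≤ (secondNbrs A v).card + (unreached A v \ R').card + 1 := by
      refine (card_le_card (t := insert v (secondNbrs A v ∪ (unreached A v \ R'))) fun x hx => ?_)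
        |>.trans ((card_insert_le _ _).trans (Nat.add_le_add_right (card_union_le _ _) 1))
      have hxR : x ∉ R' := by
        rcases mem_union.mp hx with h | h
        · exact (hD x h).2
        · exact (mem_filter.mp h).2.2
      have hxN : ¬ A v x := by
        rcases mem_union.mp hx with h | h
        · exact fun h' => (hD x h).1 (Or.inl h')
        · exact fun h' => (mem_filter.mp h).2.1 (mem_union_left _ ((hNmem x).mpr h'))
      rw [mem_insert, mem_union, mem_sdiff]
      by_cases hxv : x = v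
      · exact Or.inl hxv
      · refine Or.inr ?_
        by_cases hpath : ∃ u, A v u ∧ A u x
        · exact Or.inl (mem_filter.mpr ⟨mem_univ x, hxv, hxN, hpath⟩)
        · exact Or.inr ⟨mem_filter.mpr ⟨mem_univ x, hxv, hxN, hpath⟩, hxR⟩
    exact_mod_cast this
  have hDP : ((D.filter fun x => b ≤ f x).card : ℝ)
      ≤ (univ.filter fun x => b ≤ f x).card :=
    Nat.cast_le.mpr (card_le_card (filter_subset_filter _ (subset_univ _)))
  have h1 := hsplit N
  have h2 := hsplit Z
  have h3 := hsplit D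
  rw [hUN] at hb2 hP
  have h4 := mul_le_mul_of_nonneg_left hDP (sub_nonneg.mpr hub1)
  have h5 : (1 - ub) * ((D.filter fun x => f x < b).card : ℝ)
      ≤ 2 * ((D.filter fun x => f x < b).card : ℝ) :=
    mul_le_mul_of_nonneg_right (by linarith) (Nat.cast_nonneg _)
  rw [← h3, mul_add]
  linarith

open scoped Classical in
/-- Two vertices of `L` with similar counts of two-step paths, avoiding exceptional pairs. -/
lemma exists_pair [Nonempty V] (A : V → V → Prop)
    (θ μ β : ℝ) (m : ℕ) (hm : 0 < m) (hθ : 0 < θ)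
    (Bad : V → Finset V) (hBad : ∀ v', ((Bad v').card : ℝ) ≤ β * Fintype.card V)
    (L : Finset V) (hL : μ * Fintype.card V ≤ L.card) (hβ0 : 0 ≤ β)
    (hβ : β < μ / (2 * 2 ^ m)) :
    ∃ v ∈ L, ∃ v' ∈ L, v ∉ Bad v' ∧
      (((unreached A v).filter fun r =>
          θ * Fintype.card V ≤ ((univ.filter fun z => A v' z ∧ A z r).card : ℝ)).card : ℝ) * θ ^ 2
        ≤ 8 * Fintype.card V / m := by
  set n : ℝ := (Fintype.card V : ℝ) with hn
  have hn0 : 0 < n := by rw [hn]; exact_mod_cast Fintype.card_pos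
  have hm0 : (0 : ℝ) < m := by exact_mod_cast hm
  obtain ⟨s, hs⟩ := exists_sample (L ×ˢ (univ : Finset V))
    (fun j z => A j.1 z ∧ A z j.2) m hm
  let est : V → V → ℝ := fun v r => ((univ.filter fun i => A v (s i) ∧ A (s i) r).card : ℝ) / m
  let c : V → V → ℝ := fun v r => ((univ.filter fun z => A v z ∧ A z r).card : ℝ) / n
  let err : V → ℝ := fun v => ∑ r, (est v r - c v r) ^ 2
  have hs' : ∑ v ∈ L, err v ≤ L.card * n / m := by
    rw [sum_product] at hs
    simpa [err, est, c, hn] using hs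
  let good := L.filter fun v => err v ≤ 2 * n / m
  have hgood : (L.card : ℝ) ≤ 2 * good.card := by
    have h1 : ((L.filter fun v => ¬ err v ≤ 2 * n / m).card : ℝ) * (2 * n / m)
        ≤ ∑ v ∈ L, err v := by
      rw [← nsmul_eq_mul]
      refine (card_nsmul_le_sum _ _ _ fun v hv => (not_le.mp (mem_filter.mp hv).2).le).trans ?_
      exact sum_le_sum_of_subset_of_nonneg (filter_subset _ _)
        (fun v _ _ => sum_nonneg fun r _ => sq_nonneg _)
    have h2 : ((good.card : ℕ) : ℝ) + (L.filter fun v => ¬ err v ≤ 2 * n / m).card = L.card := by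
      exact_mod_cast card_filter_add_card_filter_not (s := L) (fun v => err v ≤ 2 * n / m)
    have h4 : ((L.filter fun v => ¬ err v ≤ 2 * n / m).card : ℝ) * 2 ≤ L.card := by
      refine le_of_mul_le_mul_right ?_ (div_pos hn0 hm0)
      calc _ = ((L.filter fun v => ¬ err v ≤ 2 * n / m).card : ℝ) * (2 * n / m) := by ring
        _ ≤ L.card * n / m := h1.trans hs'
        _ = _ := by ring
    linarith
  let pat : V → (Fin m → Bool) := fun v i => decide (A v (s i))
  obtain ⟨a, -, ha⟩ := exists_le_of_sum_le (s := (univ : Finset (Fin m → Bool))) univ_nonempty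
    (f := fun _ => (good.card : ℝ) / 2 ^ m)
    (g := fun a => ((good.filter fun v => pat v = a).card : ℝ)) (by
      rw [sum_const, card_univ, Fintype.card_fun, Fintype.card_bool, Fintype.card_fin, nsmul_eq_mul]
      push_cast
      rw [mul_div_cancel₀ _ (by positivity)]
      exact_mod_cast (card_eq_sum_card_fiberwise fun v _ => mem_univ (pat v)).le)
  set C := good.filter fun v => pat v = a
  have hC : β * n < C.card := by
    have h1 : μ * n / (2 * 2 ^ m) ≤ (good.card : ℝ) / 2 ^ m := by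
      rw [div_le_div_iff₀ (by positivity) (by positivity)]
      nlinarith [mul_le_mul_of_nonneg_right (hL.trans hgood) (by positivity : (0 : ℝ) ≤ 2 ^ m)]
    calc β * n < μ / (2 * 2 ^ m) * n := mul_lt_mul_of_pos_right hβ hn0
      _ = μ * n / (2 * 2 ^ m) := by ring
      _ ≤ _ := h1.trans ha
  obtain ⟨v', hv'⟩ : C.Nonempty := by
    rw [← card_pos]
    exact_mod_cast lt_of_le_of_lt (mul_nonneg hβ0 hn0.le) hC
  obtain ⟨v, hv, hvg⟩ : ∃ v ∈ C, v ∉ Bad v' := by
    by_contra hcon
    push Not at hcon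
    have hle : (C.card : ℝ) ≤ β * n :=
      (Nat.cast_le.mpr (card_le_card fun x hx => hcon x hx)).trans (hBad v')
    linarith
  obtain ⟨hvgood, hvp⟩ := mem_filter.mp hv
  obtain ⟨hvgood', hvp'⟩ := mem_filter.mp hv'
  refine ⟨v, (mem_filter.mp hvgood).1, v', (mem_filter.mp hvgood').1, hvg, ?_⟩
  set B := (unreached A v).filter fun r =>
    θ * n ≤ ((univ.filter fun z => A v' z ∧ A z r).card : ℝ)
  have hest : ∀ r, est v r = est v' r := by
    intro r
    have hp' : ∀ i, A v (s i) ↔ A v' (s i) := fun i => by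
      have := congrFun (hvp.trans hvp'.symm) i
      simpa [pat] using this
    simp only [est, hp']
  have h1 : (B.card : ℝ) * θ ^ 2 ≤ ∑ r ∈ B, (c v' r - c v r) ^ 2 := by
    rw [← nsmul_eq_mul]
    refine card_nsmul_le_sum B _ _ fun r hr => ?_
    obtain ⟨hrR, hr1⟩ := mem_filter.mp hr
    have hr0 : (univ.filter fun z => A v z ∧ A z r).card = 0 := by
      rw [card_eq_zero, filter_eq_empty_iff]
      exact fun z _ hz => (mem_filter.mp hrR).2.2.2 ⟨z, hz⟩
    have : θ ≤ c v' r - c v r := by
      simp only [c, hr0, Nat.cast_zero, zero_div, sub_zero]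
      rwa [le_div_iff₀ hn0]
    exact pow_le_pow_left₀ hθ.le this 2
  calc (B.card : ℝ) * θ ^ 2 ≤ ∑ r ∈ B, (c v' r - c v r) ^ 2 := h1
    _ ≤ ∑ r ∈ B, (2 * (est v r - c v r) ^ 2 + 2 * (est v' r - c v' r) ^ 2) :=
        sum_le_sum fun r _ => by
          rw [hest r]
          nlinarith [sq_nonneg (est v' r - c v r + (est v' r - c v' r))]
    _ ≤ ∑ r, (2 * (est v r - c v r) ^ 2 + 2 * (est v' r - c v' r) ^ 2) :=
        sum_le_sum_of_subset_of_nonneg (subset_univ _) fun r _ _ => by positivity
    _ ≤ 2 * (2 * n / m) + 2 * (2 * n / m) := by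
        rw [sum_add_distrib, ← mul_sum, ← mul_sum]
        exact add_le_add (mul_le_mul_of_nonneg_left (mem_filter.mp hvgood).2 two_pos.le)
          (mul_le_mul_of_nonneg_left (mem_filter.mp hvgood').2 two_pos.le)
    _ = _ := by ring

open scoped Classical in
/-- Few vertices are adjacent to too much of a given large set. -/
lemma few_upper [Nonempty V] (A : V → V → Prop) (γ η θ : ℝ) (hη : 0 ≤ η) (hγ1 : γ ≤ 1)
    (hθ : 3 * η ≤ θ)
    (hn1 : 1 ≤ η * Fintype.card V)
    (hup : ∀ X Y : Finset V, Disjoint X Y → η * Fintype.card V ≤ X.card →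
        η * Fintype.card V ≤ Y.card → adjCount A X Y ≤ (1 - γ) * X.card * Y.card)
    (S : Finset V) (hS : 3 * η * Fintype.card V ≤ S.card) :
    ((univ.filter fun x => (1 - γ) * S.card + θ * Fintype.card V
        < ((S.filter (Joined A x)).card : ℝ)).card : ℝ) ≤ 2 * η * Fintype.card V := by
  set n : ℝ := (Fintype.card V : ℝ) with hn
  have hn0 : 0 < n := by rw [hn]; exact_mod_cast Fintype.card_pos
  set B := univ.filter fun x => (1 - γ) * S.card + θ * n < ((S.filter (Joined A x)).card : ℝ)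
  by_contra hcon
  have hk : ⌈η * n⌉₊ ≤ B.card := by
    refine Nat.ceil_le.mpr ?_
    nlinarith [not_le.mp hcon]
  obtain ⟨X, hXB, hXc⟩ := exists_subset_card_eq hk
  have hX1 : η * n ≤ X.card := by rw [hXc]; exact Nat.le_ceil _
  have hX2 : (X.card : ℝ) ≤ 2 * η * n := by
    rw [hXc]
    have := Nat.ceil_lt_add_one (a := η * n) (by linarith)
    linarith
  have hY1 : (S.card : ℝ) ≤ (S \ X).card + X.card := by
    exact_mod_cast card_le_card_sdiff_add_card
  have hY2 : η * n ≤ (S \ X).card := by linarith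
  have hY3 : ((S \ X).card : ℝ) ≤ S.card := Nat.cast_le.mpr (card_le_card sdiff_subset)
  have h1 := hup X (S \ X) disjoint_sdiff hX1 hY2
  have h2 : (X.card : ℝ) * ((1 - γ) * S.card + θ * n - X.card) < adjCount A X (S \ X) := by
    rw [adjCount, ← nsmul_eq_mul, ← sum_const]
    refine sum_lt_sum_of_nonempty (card_pos.mp ?_) fun x hx => ?_
    · rw [hXc]; exact Nat.ceil_pos.mpr (by linarith)
    · have hx' := (mem_filter.mp (hXB hx)).2
      have : ((S.filter (Joined A x)).card : ℝ)
          ≤ ((S \ X).filter (Joined A x)).card + X.card := by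
        rw [← Nat.cast_add]
        exact_mod_cast (card_le_card fun y hy => by
          simp only [mem_union, mem_filter, mem_sdiff] at hy ⊢
          tauto).trans (card_union_le _ _)
      linarith
  have h3 : (X.card : ℝ) * ((1 - γ) * (S \ X).card)
      ≤ (X.card : ℝ) * ((1 - γ) * S.card + θ * n - X.card) := by
    refine mul_le_mul_of_nonneg_left ?_ (Nat.cast_nonneg _)
    have := mul_le_mul_of_nonneg_left hY3 (sub_nonneg.mpr hγ1)
    nlinarith [mul_le_mul_of_nonneg_right hθ hn0.le]
  linarith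

open scoped Classical in
/-- Few out-neighbours of `v'` lie in a set to which `v'` has few paths of two arcs. -/
lemma small_in_unreached [Nonempty V] (A : V → V → Prop) (hA : ∀ u v, A u v → ¬ A v u)
    (w : V → V → ℝ) (γ δ θ ζ : ℝ) (v' : V) (hγ : 0 < γ) (hζ : 0 < ζ) (hθ0 : 0 ≤ θ)
    (hθ : θ ≤ ζ ^ 2 * γ) (hδ : δ ≤ ζ ^ 2) (hsymm : ∀ x y, w x y = w y x)
    (hw : ∀ x y, 0 ≤ w x y ∧ w x y ≤ 1 / γ)
    (hq : ∀ X Y : Finset V, |∑ x ∈ X, ∑ y ∈ Y, dev A w x y| ≤ δ * (Fintype.card V : ℝ) ^ 2)
    (R' : Finset V)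
    (hR : ∀ r ∈ R', ((univ.filter fun z => A v' z ∧ A z r).card : ℝ) ≤ θ * Fintype.card V) :
    ((firstNbrs A v' ∩ R').card : ℝ) ≤ 2 * ζ * Fintype.card V := by
  set n : ℝ := (Fintype.card V : ℝ) with hn
  set Y := firstNbrs A v' ∩ R' with hYdef
  have hn0 : 0 ≤ n := by rw [hn]; exact Nat.cast_nonneg _
  have hin : ∀ y ∈ Y, ∑ x ∈ Y, arcWeight A w x y ≤ 1 / γ * (θ * n) := by
    intro y hy
    refine le_trans (sum_le_sum (g := fun x => if A x y then 1 / γ else 0) fun x _ => ?_) ?_
    · unfold arcWeight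
      split_ifs
      · exact (hw x y).2
      · exact le_rfl
    · rw [← sum_filter, sum_const, nsmul_eq_mul, mul_comm]
      refine mul_le_mul_of_nonneg_left ?_ (by positivity)
      refine le_trans (Nat.cast_le.mpr (card_le_card fun x hx => ?_)) (hR y (mem_inter.mp hy).2)
      obtain ⟨hxY, hxy⟩ := mem_filter.mp hx
      exact mem_filter.mpr ⟨mem_univ x, (mem_filter.mp (mem_inter.mp hxY).1).2, hxy⟩
  have hYn : (Y.card : ℝ) ≤ n := by rw [hn]; exact_mod_cast card_le_univ Y
  have hs := sum_le_card_nsmul Y _ _ hin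
  rw [nsmul_eq_mul] at hs
  have h2 := (abs_le.mp (hq Y Y)).1
  simp only [adj_split A hA w hsymm, sum_sub_distrib, sum_add_distrib, sum_const,
    nsmul_eq_mul] at h2
  rw [sum_comm] at h2
  have hθγ : θ / γ ≤ ζ ^ 2 := (div_le_iff₀ hγ).mpr hθ
  have h3 : (Y.card : ℝ) * (1 / γ * (θ * n)) ≤ ζ ^ 2 * n ^ 2 := by
    refine (mul_le_mul_of_nonneg_right hYn (by positivity)).trans ?_
    rw [show n * (1 / γ * (θ * n)) = θ / γ * n ^ 2 by ring]
    exact mul_le_mul_of_nonneg_right hθγ (sq_nonneg n)
  have h4 : (Y.card : ℝ) ^ 2 ≤ (2 * ζ * n) ^ 2 := by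
    nlinarith [mul_le_mul_of_nonneg_right hδ (sq_nonneg n)]
  exact (sq_le_sq₀ (Nat.cast_nonneg _) (by positivity)).mp h4

end Vale.Agent.P038.Dense
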