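import Mathlib

/-!
A bounded pair weight that makes a graph without sparse pairs look uniform on all vertex sets.
-/

namespace Vale.Agent.P038.Dense

open Finset

variable {V : Type} [Fintype V]

/-- `x` and `y` are joined by an arc in one of the directions. -/
def Joined (A : V → V → Prop) (x y : V) : Prop := A x y ∨ A y x

/-- The undirected graph below an oriented graph. -/
def hostGraph (A : V → V → Prop) (hA : ∀ u v, A u v → ¬ A v u) : SimpleGraph V where
  Adj x y := Joined A x y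
  symm := ⟨fun _ _ h => Or.symm h⟩
  loopless := ⟨fun x h => h.elim (fun h => hA x x h h) (fun h => hA x x h h)⟩

open scoped Classical in
/-- Number of ordered adjacent pairs between two sets. -/
noncomputable def adjCount (A : V → V → Prop) (X Y : Finset V) : ℝ :=
  ∑ x ∈ X, ((Y.filter (Joined A x)).card : ℝ)

open scoped Classical in
/-- Weighted adjacency minus one. -/
noncomputable def dev (A : V → V → Prop) (w : V → V → ℝ) (x y : V) : ℝ :=
  (if Joined A x y then w x y else 0) - 1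

open scoped Classical in
/-- Edge counts through densities. -/
lemma adjCount_eq (A : V → V → Prop) (hA : ∀ u v, A u v → ¬ A v u) (s t : Finset V) :
    adjCount A s t = ((hostGraph A hA).edgeDensity s t : ℝ) * (s.card * t.card) := by
  have e : adjCount A s t = (((hostGraph A hA).interedges s t).card : ℝ) := by
    rw [SimpleGraph.interedges_def, card_filter, sum_product, Nat.cast_sum]
    exact sum_congr rfl fun x _ => by rw [card_filter]; rfl
  rw [e, SimpleGraph.edgeDensity_def]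
  push_cast
  by_cases h0 : (s.card : ℝ) * t.card = 0
  · rw [h0, mul_zero]
    have h' : (((hostGraph A hA).interedges s t).card : ℝ) ≤ s.card * t.card := by
      rw [← Nat.cast_mul, ← card_product, SimpleGraph.interedges_def]
      exact Nat.cast_le.mpr (card_le_card (filter_subset _ _))
    exact le_antisymm (h'.trans h0.le) (Nat.cast_nonneg _)
  · exact (div_mul_cancel₀ _ h0).symm

open scoped Classical in
/-- Constant weight `1 / D` on a regular pair of density `D`. -/
lemma regular_pair (A : V → V → Prop) (hA : ∀ u v, A u v → ¬ A v u) (w : V → V → ℝ)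
    (X₁ Y₁ : Finset V) (D γ ε : ℝ) (hγ : 0 < γ) (hD : γ ≤ D) (hε : 0 ≤ ε)
    (hw : ∀ x ∈ X₁, ∀ y ∈ Y₁, w x y = 1 / D)
    (hdd : |((hostGraph A hA).edgeDensity X₁ Y₁ : ℝ) - D| ≤ ε) :
    |∑ x ∈ X₁, ∑ y ∈ Y₁, dev A w x y| ≤ ε / γ * (X₁.card * Y₁.card) := by
  have h1 : ∀ x ∈ X₁, ∑ y ∈ Y₁, dev A w x y
      = ((Y₁.filter (Joined A x)).card : ℝ) * (1 / D) - Y₁.card := by
    intro x hx
    unfold dev
    rw [sum_sub_distrib, ← sum_filter, sum_congr rfl fun y hy => hw x hx y (mem_filter.mp hy).1]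
    simp [nsmul_eq_mul]
  rw [sum_congr rfl h1, sum_sub_distrib, ← sum_mul, sum_const, nsmul_eq_mul]
  have e := adjCount_eq A hA X₁ Y₁
  unfold adjCount at e
  rw [e]
  have hD0 : D ≠ 0 := (hγ.trans_le hD).ne'
  have e2 : ((hostGraph A hA).edgeDensity X₁ Y₁ : ℝ) * (X₁.card * Y₁.card) * (1 / D)
      - X₁.card * Y₁.card
      = (((hostGraph A hA).edgeDensity X₁ Y₁ : ℝ) - D) / D * (X₁.card * Y₁.card) := by
    field_simp
  rw [e2, abs_mul, abs_div, abs_of_pos (hγ.trans_le hD),
    abs_of_nonneg (by positivity : (0 : ℝ) ≤ X₁.card * Y₁.card)]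
  exact mul_le_mul_of_nonneg_right (div_le_div₀ hε hdd hγ hD) (by positivity)

/-- Weights bounded by `1 / γ` for which all sets have pseudorandom weighted pair counts. -/
lemma exists_weight (γ ub δ : ℝ) (hγ : 0 < γ) (hγub : γ ≤ ub) (hub : ub ≤ 1) (hδ : 0 < δ) :
    ∃ η : ℝ, 0 < η ∧ η ≤ 1 ∧ ∀ (V : Type) [Fintype V] (A : V → V → Prop),
      (∀ u v, A u v → ¬ A v u) →
      1 ≤ η * Fintype.card V →
      (∀ X Y : Finset V, Disjoint X Y → η * Fintype.card V ≤ X.card →
        η * Fintype.card V ≤ Y.card →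
        γ * X.card * Y.card ≤ adjCount A X Y ∧ adjCount A X Y ≤ ub * X.card * Y.card) →
      ∃ w : V → V → ℝ, (∀ x y, w x y = w y x) ∧ (∀ x y, 1 / ub ≤ w x y ∧ w x y ≤ 1 / γ) ∧
        ∀ X Y : Finset V, |∑ x ∈ X, ∑ y ∈ Y, dev A w x y| ≤ δ * (Fintype.card V : ℝ) ^ 2 := by
  obtain ⟨l, hl8, hl0⟩ : ∃ l : ℕ, 8 / (δ * γ) ≤ l ∧ 1 ≤ l := by
    obtain ⟨l, hl⟩ := exists_nat_ge (8 / (δ * γ))
    exact ⟨l + 1, by push_cast; linarith, by omega⟩
  set ε := δ * γ / 10 with hε
  have hε0 : 0 < ε := by positivity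
  set M := SzemerediRegularity.bound ε l with hM
  have hM0 : (0 : ℝ) < M := by exact_mod_cast SzemerediRegularity.bound_pos ε l
  refine ⟨1 / (4 * (M + l)), by positivity, ?_, fun V _ A hA hn hd => ?_⟩
  · rw [div_le_one (by positivity)]
    have : (1 : ℝ) ≤ l := by exact_mod_cast hl0
    linarith
  classical
  set n : ℕ := Fintype.card V with hn'
  have hn4 : 4 * ((M : ℝ) + l) ≤ n := by
    rw [one_div_mul_eq_div, le_div_iff₀ (by positivity)] at hn
    linarith
  have hln : l ≤ Fintype.card V := by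
    have : (l : ℝ) ≤ n := by linarith
    exact_mod_cast this
  obtain ⟨P, hP, hPl, hPb, hPu⟩ := szemeredi_regularity (hostGraph A hA) hε0 hln
  set k := P.parts.card with hk
  have hk0 : (0 : ℝ) < k := by
    have : 1 ≤ k := hl0.trans hPl
    exact_mod_cast this
  have hkM : (k : ℝ) ≤ M := by exact_mod_cast hPb
  have hsize : ∀ I ∈ P.parts, (1 / (4 * ((M : ℝ) + l))) * n ≤ I.card ∧ (I.card : ℝ) ≤ 2 * n / k := by
    intro I hI
    have h1 := hP.average_le_card_part hI
    have h2 := hP.card_part_le_average_add_one hI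
    rw [card_univ, ← hn', ← hk] at h1 h2
    have e1 : ((n / k : ℕ) : ℝ) ≤ (n : ℝ) / k := Nat.cast_div_le
    have e2 : (n : ℝ) / k - 1 ≤ ((n / k : ℕ) : ℝ) := by
      have h := Nat.lt_mul_div_succ n (show 0 < k from hl0.trans hPl)
      have h' : (n : ℝ) < k * (((n / k : ℕ) : ℝ) + 1) := by exact_mod_cast h
      rw [sub_le_iff_le_add, div_le_iff₀ hk0]
      linarith
    have e3 : 4 * ((1 / (4 * ((M : ℝ) + l))) * n) ≤ (n : ℝ) / k := by
      rw [← mul_assoc, mul_one_div, mul_comm (4 : ℝ) ((M : ℝ) + l), div_mul_cancel_right₀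
        (by norm_num), inv_mul_eq_div]
      exact div_le_div_of_nonneg_left (Nat.cast_nonneg n) hk0
        (by linarith [(Nat.cast_nonneg l : (0 : ℝ) ≤ l)])
    have h1' : ((n / k : ℕ) : ℝ) ≤ I.card := by exact_mod_cast h1
    have h2' : (I.card : ℝ) ≤ ((n / k : ℕ) : ℝ) + 1 := by exact_mod_cast h2
    have e4 : 2 * (n : ℝ) / k = (n : ℝ) / k + (n : ℝ) / k := by ring
    constructor <;> linarith
  let d : V → V → ℝ := fun x y => ((hostGraph A hA).edgeDensity (P.part x) (P.part y) : ℝ)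
  let ρ : V → V → ℝ := fun x y => max γ (min ub (d x y))
  have hρ : ∀ x y, γ ≤ ρ x y ∧ ρ x y ≤ ub :=
    fun x y => ⟨le_max_left _ _, max_le hγub (min_le_left _ _)⟩
  refine ⟨fun x y => 1 / ρ x y, fun x y => ?_, fun x y => ⟨?_, ?_⟩, fun X Y => ?_⟩
  · simp only [ρ, d, SimpleGraph.edgeDensity_comm _ (P.part x) (P.part y)]
  · exact one_div_le_one_div_of_le (hγ.trans_le (hρ x y).1) (hρ x y).2
  · exact one_div_le_one_div_of_le hγ (hρ x y).1
  set w : V → V → ℝ := fun x y => 1 / ρ x y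
  have hterm : ∀ x y, |dev A w x y| ≤ 1 / γ := by
    intro x y
    have h1 : (1 : ℝ) ≤ 1 / γ := (one_le_div hγ).mpr (hγub.trans hub)
    have h2 : 0 < w x y ∧ w x y ≤ 1 / γ :=
      ⟨one_div_pos.mpr (hγ.trans_le (hρ x y).1), one_div_le_one_div_of_le hγ (hρ x y).1⟩
    unfold dev
    split_ifs <;> rw [abs_le] <;> constructor <;> linarith
  let S : Finset V × Finset V → ℝ := fun q =>
    ∑ x ∈ X.filter (fun x => x ∈ q.1), ∑ y ∈ Y.filter (fun y => y ∈ q.2), dev A w x y
  have hsplit : ∑ x ∈ X, ∑ y ∈ Y, dev A w x y = ∑ q ∈ P.parts ×ˢ P.parts, S q := by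
    have hfib : ∀ (Z : Finset V) (g : V → ℝ),
        ∑ z ∈ Z, g z = ∑ I ∈ P.parts, ∑ z ∈ Z.filter (fun z => z ∈ I), g z := by
      intro Z g
      rw [← sum_fiberwise_of_maps_to
        (fun z _ => P.part_mem.mpr (mem_univ z) : ∀ z ∈ Z, P.part z ∈ P.parts)]
      refine sum_congr rfl fun I hI => sum_congr ?_ fun _ _ => rfl
      ext z
      simp only [mem_filter, and_congr_right_iff]
      intro _
      exact ⟨fun h => h ▸ P.mem_part (mem_univ z), fun h => P.part_eq_of_mem hI h⟩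
    rw [sum_product, hfib X]
    refine sum_congr rfl fun I _ => ?_
    refine Eq.trans (sum_congr rfl fun x _ => hfib Y _) ?_
    exact sum_comm
  have htriv : ∀ q ∈ P.parts ×ˢ P.parts, |S q| ≤ 1 / γ * (q.1.card * q.2.card) := by
    intro q _
    refine (abs_sum_le_sum_abs _ _).trans ?_
    refine (sum_le_sum fun x _ => (abs_sum_le_sum_abs _ _).trans
      (sum_le_sum fun y _ => hterm x y)).trans ?_
    simp only [sum_const, nsmul_eq_mul]
    have a1 : ((X.filter fun x => x ∈ q.1).card : ℝ) ≤ q.1.card :=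
      Nat.cast_le.mpr (card_le_card fun x hx => (mem_filter.mp hx).2)
    have a2 : ((Y.filter fun y => y ∈ q.2).card : ℝ) ≤ q.2.card :=
      Nat.cast_le.mpr (card_le_card fun y hy => (mem_filter.mp hy).2)
    rw [← mul_assoc, mul_comm (1 / γ) ((q.1.card : ℝ) * q.2.card)]
    exact mul_le_mul_of_nonneg_right (mul_le_mul a1 a2 (by positivity) (by positivity))
      (by positivity)
  set good := (P.parts ×ˢ P.parts).filter fun q =>
    q.1 ≠ q.2 ∧ (hostGraph A hA).IsUniform ε q.1 q.2 with hgood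
  have hgoodS : ∀ q ∈ good, |S q| ≤ ε / γ * (q.1.card * q.2.card) := by
    intro q hq
    obtain ⟨hqP, hne, hunif⟩ := mem_filter.mp hq
    obtain ⟨hI, hJ⟩ := mem_product.mp hqP
    set X₁ := X.filter fun x => x ∈ q.1
    set Y₁ := Y.filter fun y => y ∈ q.2
    have hXs : X₁ ⊆ q.1 := fun x hx => (mem_filter.mp hx).2
    have hYs : Y₁ ⊆ q.2 := fun y hy => (mem_filter.mp hy).2
    have aX : (X₁.card : ℝ) ≤ q.1.card := Nat.cast_le.mpr (card_le_card hXs)
    have aY : (Y₁.card : ℝ) ≤ q.2.card := Nat.cast_le.mpr (card_le_card hYs)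
    have hS1 : |S q| ≤ 1 / γ * (X₁.card * Y₁.card) := by
      refine (abs_sum_le_sum_abs _ _).trans ?_
      refine (sum_le_sum fun x _ => (abs_sum_le_sum_abs _ _).trans
        (sum_le_sum fun y _ => hterm x y)).trans (le_of_eq ?_)
      simp only [sum_const, nsmul_eq_mul]
      ring
    by_cases hsm : (q.1.card : ℝ) * ε ≤ X₁.card ∧ (q.2.card : ℝ) * ε ≤ Y₁.card
    · have hdd := hunif hXs hYs hsm.1 hsm.2
      set D := ((hostGraph A hA).edgeDensity q.1 q.2 : ℝ) with hD
      have hpos : 0 < (q.1.card : ℝ) ∧ 0 < (q.2.card : ℝ) :=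
        ⟨by exact_mod_cast (P.nonempty_of_mem_parts hI).card_pos,
          by exact_mod_cast (P.nonempty_of_mem_parts hJ).card_pos⟩
      have hdens := hd q.1 q.2 (P.disjoint hI hJ hne) (hsize _ hI).1 (hsize _ hJ).1
      rw [adjCount_eq A hA, ← hD, mul_assoc γ, mul_assoc ub] at hdens
      have hDγ : γ ≤ D := le_of_mul_le_mul_right hdens.1 (mul_pos hpos.1 hpos.2)
      have hDub : D ≤ ub := le_of_mul_le_mul_right hdens.2 (mul_pos hpos.1 hpos.2)
      have hρD : ∀ x ∈ X₁, ∀ y ∈ Y₁, w x y = 1 / D := by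
        intro x hx y hy
        simp only [w, ρ, d, P.part_eq_of_mem hI (hXs hx), P.part_eq_of_mem hJ (hYs hy), ← hD]
        rw [min_eq_right hDub, max_eq_right hDγ]
      exact (regular_pair A hA w X₁ Y₁ D γ ε hγ hDγ hε0.le hρD hdd.le).trans
        (mul_le_mul_of_nonneg_left (mul_le_mul aX aY (by positivity) (by positivity))
          (by positivity))
    · refine hS1.trans ?_
      rw [show ε / γ * ((q.1.card : ℝ) * q.2.card) = 1 / γ * (ε * (q.1.card * q.2.card)) by ring]
      refine mul_le_mul_of_nonneg_left ?_ (by positivity)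
      rcases not_and_or.mp hsm with h | h
      · calc (X₁.card : ℝ) * Y₁.card ≤ (q.1.card * ε) * q.2.card :=
              mul_le_mul (not_le.mp h).le aY (by positivity) (by positivity)
          _ = _ := by ring
      · calc (X₁.card : ℝ) * Y₁.card ≤ q.1.card * (q.2.card * ε) :=
              mul_le_mul aX (not_le.mp h).le (by positivity) (by positivity)
          _ = _ := by ring
  have hn2 : ∑ q ∈ P.parts ×ˢ P.parts, (q.1.card : ℝ) * q.2.card = (n : ℝ) ^ 2 := by
    have hs : ∑ I ∈ P.parts, (I.card : ℝ) = n := by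
      have := P.sum_card_parts
      rw [card_univ] at this
      exact_mod_cast this
    rw [sum_product, sq, ← hs, sum_mul_sum]
  have hbadcard : (((P.parts ×ˢ P.parts).filter fun q =>
      ¬ (q.1 ≠ q.2 ∧ (hostGraph A hA).IsUniform ε q.1 q.2)).card : ℝ) ≤ k + (k : ℝ) * k * ε := by
    have hsub : ((P.parts ×ˢ P.parts).filter fun q =>
        ¬ (q.1 ≠ q.2 ∧ (hostGraph A hA).IsUniform ε q.1 q.2))
        ⊆ P.parts.image (fun I => (I, I)) ∪ P.nonUniforms (hostGraph A hA) ε := by
      intro q hq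
      obtain ⟨hqP, hq'⟩ := mem_filter.mp hq
      obtain ⟨hI, hJ⟩ := mem_product.mp hqP
      by_cases he : q.1 = q.2
      · exact mem_union_left _ (mem_image.mpr ⟨q.1, hI, Prod.ext rfl he⟩)
      · refine mem_union_right _ ?_
        exact (Finpartition.mk_mem_nonUniforms (u := q.1) (v := q.2) _ _).mpr
          ⟨hI, hJ, he, fun hu => hq' ⟨he, hu⟩⟩
    refine le_trans (by exact_mod_cast (card_le_card hsub).trans (card_union_le _ _) :
      _ ≤ ((P.parts.image fun I => (I, I)).card : ℝ)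
        + (P.nonUniforms (hostGraph A hA) ε).card) (add_le_add ?_ ?_)
    · exact Nat.cast_le.mpr card_image_le
    · refine hPu.trans (mul_le_mul_of_nonneg_right ?_ hε0.le)
      exact_mod_cast Nat.mul_le_mul_left k (Nat.sub_le k 1)
  rw [hsplit]
  refine (abs_sum_le_sum_abs _ _).trans ?_
  rw [← sum_filter_add_sum_filter_not _
    (fun q : Finset V × Finset V => q.1 ≠ q.2 ∧ (hostGraph A hA).IsUniform ε q.1 q.2)]
  have s1 : ∑ q ∈ good, |S q| ≤ ε / γ * (n : ℝ) ^ 2 := by
    refine (sum_le_sum hgoodS).trans ?_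
    rw [← mul_sum, ← hn2]
    exact mul_le_mul_of_nonneg_left
      (sum_le_sum_of_subset_of_nonneg (filter_subset _ _) fun _ _ _ => by positivity)
      (by positivity)
  have s2 : ∑ q ∈ (P.parts ×ˢ P.parts).filter
      (fun q => ¬ (q.1 ≠ q.2 ∧ (hostGraph A hA).IsUniform ε q.1 q.2)), |S q|
      ≤ (k + (k : ℝ) * k * ε) * (1 / γ * (2 * n / k * (2 * n / k))) := by
    refine (sum_le_card_nsmul _ _ (1 / γ * (2 * n / k * (2 * n / k))) fun q hq => ?_).trans ?_
    · obtain ⟨hqP, -⟩ := mem_filter.mp hq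
      obtain ⟨hI, hJ⟩ := mem_product.mp hqP
      exact (htriv q hqP).trans (mul_le_mul_of_nonneg_left
        (mul_le_mul (hsize _ hI).2 (hsize _ hJ).2 (Nat.cast_nonneg _) (by positivity))
        (by positivity))
    · rw [nsmul_eq_mul]
      exact mul_le_mul_of_nonneg_right hbadcard (by positivity)
  refine (add_le_add s1 s2).trans ?_
  have hkl : 8 / (δ * γ) ≤ k := hl8.trans (by exact_mod_cast hPl)
  have h8 : 4 / (k : ℝ) ≤ δ * γ / 2 := by
    rw [div_le_iff₀ (by positivity)] at hkl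
    rw [div_le_iff₀ hk0]
    linarith
  have e : ε / γ * (n : ℝ) ^ 2 + ((k : ℝ) + k * k * ε) * (1 / γ * (2 * n / k * (2 * n / k)))
      = (5 * ε + 4 / k) / γ * (n : ℝ) ^ 2 := by field_simp; ring
  rw [e]
  refine mul_le_mul_of_nonneg_right ?_ (sq_nonneg _)
  rw [div_le_iff₀ hγ]
  linarith

end Vale.Agent.P038.Dense
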