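import Mathlib

/-!
Seymour second neighbourhood: the definitions of the averaged inequality and of the
bounded missing degree case, and the gadget linking them.
-/

namespace Vale.Agent.P038.Averaged

open Finset

/-- The out-neighbourhood. -/
def outSet {V : Type} (A : V → V → Prop) (v : V) : Set V := {u | A v u}

/-- The second out-neighbourhood. -/
def secondSet {V : Type} (A : V → V → Prop) (v : V) : Set V :=
  {x | x ≠ v ∧ ¬ A v x ∧ ∃ u, A v u ∧ A u x}

/-- The statement of Seymour's conjecture. -/
def Seymour : Prop :=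
  ∀ (V : Type) [Finite V] [Nonempty V] (A : V → V → Prop),
    (∀ u v, A u v → ¬ A v u) → ∃ v, (outSet A v).ncard ≤ (secondSet A v).ncard

/-- The same statement for large almost regular tournaments missing a bounded-degree graph:
at least `N₀` vertices, at most `Δ` non-neighbours, in- and out-degrees at least `(n - Δ) / 2`. -/
def SeymourBoundedMissing (Δ N₀ : ℕ) : Prop :=
  ∀ (V : Type) [Finite V] [Nonempty V] (A : V → V → Prop),
    (∀ u v, A u v → ¬ A v u) → N₀ ≤ Nat.card V →
    (∀ v, {x | x ≠ v ∧ ¬ A v x ∧ ¬ A x v}.ncard ≤ Δ) →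
    (∀ v, Nat.card V ≤ 2 * (outSet A v).ncard + Δ) →
    (∀ v, Nat.card V ≤ 2 * {x | A x v}.ncard + Δ) →
    ∃ v, (outSet A v).ncard ≤ (secondSet A v).ncard

/-- The averaged inequality. -/
def AveragedInequality : Prop :=
  ∀ (V : Type) [Fintype V] (A R : V → V → Prop),
    (∀ u v, A u v → ¬ A v u) → (∀ a, R a a) →
    (∀ a b, R a b → a ≠ b → ¬ A a b ∧ ¬ ∃ z, A a z ∧ A z b) →
    ∃ f : V → V, (∀ b, R (f b) b) ∧
      ∑ b, (2 * (outSet A (f b)).ncard + {x | R (f b) x}.ncard) ≤ Fintype.card V ^ 2

section Gadget

variable {H : Type} [Fintype H]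

/-- Rotational tournament on `ZMod (2 * J + 1)`. -/
def rot (J : ℕ) (i j : ZMod (2 * J + 1)) : Prop := 1 ≤ (j - i).val ∧ (j - i).val ≤ J

/-- Arcs of the gadget. -/
def gArc (A : H → H → Prop) (J : ℕ) (o P : H → ℕ) :
    ZMod (2 * J + 1) × Option H → ZMod (2 * J + 1) × Option H → Prop
  | (i, some a), (j, some c) => (j = i ∧ A a c) ∨ rot J i j
  | (i, some a), (j, none) => (j - i).val < o a
  | (j, none), (i, some c) => P c ≤ (j - i).val
  | (i, none), (j, none) => rot J i j

lemma rot_asymm (J : ℕ) (i j : ZMod (2 * J + 1)) (h : rot J i j) : ¬ rot J j i := by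
  obtain ⟨h1, h2⟩ := h
  rintro ⟨h3, h4⟩
  have hne : j - i ≠ 0 := by
    intro h0; simp [h0] at h1
  have : (i - j).val = (2 * J + 1) - (j - i).val := by
    have : NeZero (j - i) := ⟨hne⟩
    rw [← neg_sub j i, ZMod.val_neg_of_ne_zero]
  omega

omit [Fintype H] in
lemma gArc_asymm (A : H → H → Prop) (hA : ∀ u v, A u v → ¬ A v u) (J : ℕ) (o P : H → ℕ)
    (hoP : ∀ c, o c ≤ P c) : ∀ u v, gArc A J o P u v → ¬ gArc A J o P v u := by
  rintro ⟨i, x⟩ ⟨j, y⟩ h h'
  cases x <;> cases y <;> simp only [gArc] at h h'
  · exact rot_asymm J i j h h'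
  · next c =>
    have := hoP c
    omega
  · next a =>
    have := hoP a
    omega
  · rcases h with ⟨hji, hac⟩ | hr <;> rcases h' with ⟨hij, hca⟩ | hr'
    · exact hA _ _ hac hca
    · subst hji; simp [rot] at hr'
    · subst hij; simp [rot] at hr
    · exact rot_asymm J i j hr hr'

/-- Counting a residue class condition. -/
lemma card_val_filter (L : ℕ) [NeZero L] (p : ℕ → Prop) [DecidablePred p] :
    (Finset.univ.filter (fun k : ZMod L => p k.val)).card = ((range L).filter p).card := by
  refine Finset.card_bij (fun k _ => k.val) ?_ ?_ ?_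
  · intro k hk
    simp only [mem_filter, mem_univ, true_and] at hk
    simp [ZMod.val_lt, hk]
  · intro a _ b _ hab
    exact ZMod.val_injective L hab
  · intro b hb
    simp only [mem_filter, mem_range] at hb
    exact ⟨(b : ZMod L), by simp [ZMod.val_natCast_of_lt hb.1, hb.2],
      ZMod.val_natCast_of_lt hb.1⟩

lemma card_shift (L : ℕ) [NeZero L] (i : ZMod L) (p : ℕ → Prop) [DecidablePred p] :
    (Finset.univ.filter (fun j : ZMod L => p (j - i).val)).card = ((range L).filter p).card := by
  rw [← card_val_filter L p]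
  refine Finset.card_equiv (Equiv.subRight i) ?_
  intro j; simp

lemma card_shift' (L : ℕ) [NeZero L] (j : ZMod L) (p : ℕ → Prop) [DecidablePred p] :
    (Finset.univ.filter (fun i : ZMod L => p (j - i).val)).card = ((range L).filter p).card := by
  rw [← card_val_filter L p]
  refine Finset.card_equiv (Equiv.subLeft j) ?_
  intro i; simp

lemma count_lt {L m : ℕ} (h : m ≤ L) : ((range L).filter (fun k => k < m)).card = m := by
  have : (range L).filter (fun k => k < m) = range m := by
    ext k; simp only [mem_filter, mem_range]; omega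
  simp [this]

lemma count_ge {L m : ℕ} : ((range L).filter (fun k => m ≤ k)).card = L - m := by
  have : (range L).filter (fun k => m ≤ k) = Ico m L := by
    ext k; simp only [mem_filter, mem_range, mem_Ico]; omega
  simp [this]

lemma count_mid {L m M : ℕ} :
    ((range L).filter (fun k => m ≤ k ∧ k < M)).card ≤ M - m := by
  have : (range L).filter (fun k => m ≤ k ∧ k < M) ⊆ Ico m M := by
    intro k hk; simp only [mem_filter, mem_range, mem_Ico] at hk ⊢; omega
  simpa using card_le_card this

lemma count_rot (J : ℕ) :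
    ((range (2 * J + 1)).filter (fun k => 1 ≤ k ∧ k ≤ J)).card = J := by
  have : (range (2 * J + 1)).filter (fun k => 1 ≤ k ∧ k ≤ J) = Icc 1 J := by
    ext k; simp only [mem_filter, mem_range, mem_Icc]; omega
  simp [this]

lemma ncard_prod_option {L : ℕ} [NeZero L] (p : ZMod L × Option H → Prop) [DecidablePred p] :
    {x | p x}.ncard = (Finset.univ.filter (fun j : ZMod L => p (j, none))).card
      + ∑ c : H, (Finset.univ.filter (fun j : ZMod L => p (j, some c))).card := by
  have hs : {x | p x} = ↑(Finset.univ.filter p) := by ext; simp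
  rw [hs, Set.ncard_coe_finset]
  simp only [Finset.card_filter]
  rw [Fintype.sum_prod_type_right, Fintype.sum_option]

lemma rot_total (J : ℕ) {i j : ZMod (2 * J + 1)} (hne : j ≠ i) : rot J i j ∨ rot J j i := by
  have : NeZero (j - i) := ⟨sub_ne_zero.mpr hne⟩
  have h0 : (j - i).val ≠ 0 := (ZMod.val_ne_zero _).mpr (sub_ne_zero.mpr hne)
  have h1 : (j - i).val < 2 * J + 1 := ZMod.val_lt _
  have h2 : (i - j).val = (2 * J + 1) - (j - i).val := by
    rw [← neg_sub j i, ZMod.val_neg_of_ne_zero]
  simp only [rot]; omega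

omit [Fintype H] in
lemma secondSet_avoids (A R : H → H → Prop)
    (hR : ∀ a b, R a b → a ≠ b → ¬ A a b ∧ ¬ ∃ z, A a z ∧ A z b)
    (J : ℕ) (o P : H → ℕ) (hoP : ∀ a c, R a c → o a ≤ P c)
    (i : ZMod (2 * J + 1)) (a c : H) (hac : R a c) :
    (i, some c) ∉ secondSet (gArc A J o P) (i, some a) := by
  rintro ⟨hne, -, ⟨j, y⟩, h1, h2⟩
  have hne' : a ≠ c := fun h => hne (by rw [h])
  cases y with
  | none =>
    simp only [gArc] at h1 h2
    have := hoP a c hac
    omega
  | some e =>
    simp only [gArc] at h1 h2
    rcases h1 with ⟨hji, hae⟩ | hr <;> rcases h2 with ⟨hij, hec⟩ | hr'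
    · exact (hR a c hac hne').2 ⟨e, hae, hec⟩
    · subst hji; simp [rot] at hr'
    · subst hij; simp [rot] at hr
    · exact rot_asymm J i j hr hr'

omit [Fintype H] in
lemma not_arc_of_rel (A R : H → H → Prop) (hA : ∀ u v, A u v → ¬ A v u)
    (hR : ∀ a b, R a b → a ≠ b → ¬ A a b ∧ ¬ ∃ z, A a z ∧ A z b)
    (J : ℕ) (o P : H → ℕ) (i : ZMod (2 * J + 1)) (a c : H) (hac : R a c) :
    ¬ gArc A J o P (i, some a) (i, some c) := by
  simp only [gArc]
  rintro (⟨-, h⟩ | h)
  · by_cases hne : a = c
    · subst hne; exact hA a a h h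
    · exact (hR a c hac hne).1 h
  · simp [rot] at h

lemma out_some (A : H → H → Prop) (J : ℕ) (o P : H → ℕ) (i : ZMod (2 * J + 1)) (a : H)
    (ho : o a ≤ 2 * J + 1) :
    (outSet (gArc A J o P) (i, some a)).ncard
      = o a + Fintype.card H * J + (outSet A a).ncard := by
  classical
  rw [outSet, ncard_prod_option]
  have h1 : (Finset.univ.filter
      fun j => gArc A J o P (i, some a) (j, none)).card = o a := by
    convert (card_shift _ i (fun k => k < o a)).trans (count_lt ho) using 3
    all_goals rfl
  have h2 : ∀ c, (Finset.univ.filter fun j => gArc A J o P (i, some a) (j, some c)).card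
      = J + if A a c then 1 else 0 := by
    intro c
    simp only [gArc]
    have hr : (Finset.univ.filter fun j => rot J i j).card = J := by
      convert (card_shift _ i (fun k => 1 ≤ k ∧ k ≤ J)).trans (count_rot J) using 3
      all_goals rfl
    by_cases h : A a c
    · have hi : ¬ rot J i i := by simp [rot]
      simp only [h, and_true, if_true]
      rw [Finset.filter_or, card_union_of_disjoint, hr]
      · simp [Finset.filter_eq', add_comm]
      · rw [Finset.disjoint_left]
        intro x hx hx'
        simp only [mem_filter, mem_univ, true_and] at hx hx'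
        subst hx; exact hi hx'
    · simp [h, hr]
  rw [h1, sum_congr rfl (fun c _ => h2 c)]
  simp only [sum_add_distrib, sum_const, card_univ, smul_eq_mul, sum_boole, Nat.cast_id]
  have : (outSet A a).ncard = (Finset.univ.filter fun c => A a c).card := by
    rw [← Set.ncard_coe_finset]; congr; ext; simp [outSet]
  rw [this]; ring

lemma out_none (A : H → H → Prop) (J : ℕ) (o P : H → ℕ) (i : ZMod (2 * J + 1)) :
    (outSet (gArc A J o P) (i, none)).ncard = J + ∑ c, (2 * J + 1 - P c) := by
  classical
  rw [outSet, ncard_prod_option]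
  congr 1
  · convert (card_shift _ i (fun k => 1 ≤ k ∧ k ≤ J)).trans (count_rot J) using 3
    all_goals rfl
  · refine sum_congr rfl fun c _ => ?_
    convert (card_shift' _ i (fun k => P c ≤ k)).trans count_ge using 3
    all_goals rfl

/-- A vertex, its out-set, in-set and non-neighbours cover everything. -/
lemma card_le_cover {V : Type} [Finite V] (A : V → V → Prop) (v : V) :
    Nat.card V ≤ 1 + (outSet A v).ncard + {x | A x v}.ncard
      + {x | x ≠ v ∧ ¬ A v x ∧ ¬ A x v}.ncard := by
  classical
  have hsub : (Set.univ : Set V) ⊆ {v} ∪ outSet A v ∪ {x | A x v}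
      ∪ {x | x ≠ v ∧ ¬ A v x ∧ ¬ A x v} := by
    intro x _
    simp only [Set.mem_union, Set.mem_singleton_iff, outSet, Set.mem_ofPred_eq]
    tauto
  have h := Set.ncard_le_ncard hsub (Set.toFinite _)
  rw [Set.ncard_univ] at h
  refine h.trans ?_
  refine (Set.ncard_union_le _ _).trans (Nat.add_le_add_right ?_ _)
  refine (Set.ncard_union_le _ _).trans (Nat.add_le_add_right ?_ _)
  exact (Set.ncard_union_le _ _).trans (by simp)

/-- A violation of the averaged inequality, with integer slack, gives almost tournaments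
without a Seymour vertex. -/
theorem gadget (A R : H → H → Prop) (hA : ∀ u v, A u v → ¬ A v u) (hR0 : ∀ a, R a a)
    (hR : ∀ a b, R a b → a ≠ b → ¬ A a b ∧ ¬ ∃ z, A a z ∧ A z b)
    (t T : H → ℤ) (hT : ∀ a c, R a c → t a ≤ T c)
    (h1 : ∀ a, (Fintype.card H : ℤ) + 1
      < 2 * (outSet A a).ncard + {x | R a x}.ncard + 2 * t a)
    (h2 : 2 * ∑ c, T c < (Fintype.card H : ℤ)) :
    ∃ Δ, ∀ N₀, ¬ SeymourBoundedMissing Δ N₀ := by
  classical
  set h := Fintype.card H with hh
  let B : ℕ := ∑ c, ((t c).natAbs + (T c).natAbs)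
  have hB : ∀ c, (t c).natAbs ≤ B ∧ (T c).natAbs ≤ B := by
    intro c
    have : (t c).natAbs + (T c).natAbs ≤ B :=
      single_le_sum (f := fun c => (t c).natAbs + (T c).natAbs) (fun _ _ => Nat.zero_le _)
        (mem_univ c)
    omega
  let C : ℕ := 4 * (h + 1) * (B + 1)
  refine ⟨2 * C, fun N₀ => ?_⟩
  obtain ⟨J, hJ1, hJ2⟩ : ∃ J : ℕ, B + 1 ≤ J ∧ N₀ ≤ J := ⟨B + 1 + N₀, by omega, by omega⟩
  let o : H → ℕ := fun a => ((J : ℤ) + t a).toNat
  let P : H → ℕ := fun a => ((J : ℤ) + T a).toNat
  have hoe : ∀ a, ((o a : ℕ) : ℤ) = J + t a := fun a => by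
    have := hB a; simp only [o]; omega
  have hPe : ∀ a, ((P a : ℕ) : ℤ) = J + T a := fun a => by
    have := hB a; simp only [P]; omega
  have hoP : ∀ a c, R a c → o a ≤ P c := fun a c hac => by
    have := hT a c hac; have := hoe a; have := hPe c; omega
  have hoL : ∀ a, o a ≤ J + B ∧ J ≤ o a + B := fun a => by
    have := hoe a; have := hB a; omega
  have hPL : ∀ a, P a ≤ J + B ∧ J ≤ P a + B := fun a => by
    have := hPe a; have := hB a; omega
  set G := gArc A J o P with hG
  have hN : Nat.card (ZMod (2 * J + 1) × Option H) = (2 * J + 1) * (h + 1) := by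
    simp [Nat.card_eq_fintype_card, ZMod.card, hh]
  intro hS
  -- non-neighbours
  have hnon : ∀ v, {x | x ≠ v ∧ ¬ G v x ∧ ¬ G x v}.ncard ≤ 2 * (h + 1) * (B + 1) := by
    rintro ⟨i, _ | a⟩
    · rw [ncard_prod_option]
      have e1 : (Finset.univ.filter fun j : ZMod (2 * J + 1) =>
          (j, (none : Option H)) ≠ (i, none) ∧ ¬ G (i, none) (j, none) ∧
            ¬ G (j, none) (i, none)).card = 0 := by
        rw [Finset.card_eq_zero, Finset.filter_eq_empty_iff]
        rintro j - ⟨hne, n1, n2⟩
        have hji : j ≠ i := fun e => hne (by rw [e])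
        simp only [hG, gArc] at n1 n2
        rcases rot_total J hji with r | r <;> contradiction
      have e2 : ∀ c : H, (Finset.univ.filter fun j : ZMod (2 * J + 1) =>
          (j, some c) ≠ (i, none) ∧ ¬ G (i, none) (j, some c) ∧
            ¬ G (j, some c) (i, none)).card ≤ 2 * B := by
        intro c
        refine (card_le_card (t := Finset.univ.filter
          fun j => o c ≤ (i - j).val ∧ (i - j).val < P c) ?_).trans ?_
        · intro j hj
          simp only [hG, gArc, mem_filter, mem_univ, true_and, not_le, not_lt] at hj ⊢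
          exact ⟨hj.2.2, hj.2.1⟩
        · rw [card_shift' _ i (fun k => o c ≤ k ∧ k < P c)]
          refine count_mid.trans ?_
          have := hPL c; have := hoL c; omega
      rw [e1]
      refine (Nat.add_le_add_left (sum_le_sum fun c _ => e2 c) 0).trans ?_
      simp only [sum_const, card_univ, smul_eq_mul, ← hh]
      nlinarith
    · rw [ncard_prod_option]
      have e1 : (Finset.univ.filter fun j : ZMod (2 * J + 1) =>
          (j, (none : Option H)) ≠ (i, some a) ∧ ¬ G (i, some a) (j, none) ∧
            ¬ G (j, none) (i, some a)).card ≤ 2 * B := by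
        refine (card_le_card (t := Finset.univ.filter
          fun j => o a ≤ (j - i).val ∧ (j - i).val < P a) ?_).trans ?_
        · intro j hj
          simp only [hG, gArc, mem_filter, mem_univ, true_and, not_le, not_lt] at hj ⊢
          exact ⟨hj.2.1, hj.2.2⟩
        · rw [card_shift _ i (fun k => o a ≤ k ∧ k < P a)]
          refine count_mid.trans ?_
          have := hPL a; have := hoL a; omega
      have e2 : ∀ c : H, (Finset.univ.filter fun j : ZMod (2 * J + 1) =>
          (j, some c) ≠ (i, some a) ∧ ¬ G (i, some a) (j, some c) ∧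
            ¬ G (j, some c) (i, some a)).card ≤ 1 := by
        intro c
        refine (card_le_card (t := {i}) ?_).trans (by simp)
        intro j hj
        simp only [hG, gArc, mem_filter, mem_univ, true_and, not_or] at hj
        rw [mem_singleton]
        by_contra hji
        rcases rot_total J hji with r | r
        · exact hj.2.1.2 r
        · exact hj.2.2.2 r
      refine (Nat.add_le_add e1 (sum_le_sum fun c _ => e2 c)).trans ?_
      simp only [sum_const, card_univ, smul_eq_mul, ← hh]
      nlinarith
  have hout : ∀ v, (2 * J + 1) * (h + 1) ≤ 2 * (outSet G v).ncard + C ∧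
      2 * (outSet G v).ncard + 2 ≤ (2 * J + 1) * (h + 1) + C := by
    rintro ⟨i, _ | a⟩
    · rw [out_none]
      have l1 : h * (J + 1 - B) ≤ ∑ c, (2 * J + 1 - P c) := by
        have := sum_le_sum (s := (Finset.univ : Finset H))
          (f := fun _ => J + 1 - B) (g := fun c => 2 * J + 1 - P c)
          (fun c _ => by have := hPL c; omega)
        simpa [hh] using this
      have l2 : ∑ c, (2 * J + 1 - P c) ≤ h * (J + 1 + B) := by
        have := sum_le_sum (s := (Finset.univ : Finset H))
          (f := fun c => 2 * J + 1 - P c) (g := fun _ => J + 1 + B)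
          (fun c _ => by have := hPL c; omega)
        simpa [hh] using this
      have hsub : J + 1 - B + B = J + 1 := by omega
      constructor
      · simp only [C]; nlinarith
      · simp only [C] at *
        nlinarith
    · have := hoL a
      rw [out_some A J o P i a (by omega), ← hh]
      have hd : (outSet A a).ncard ≤ h := by
        rw [hh, ← Nat.card_eq_fintype_card]
        exact Set.ncard_le_card _
      constructor
      · simp only [C]; nlinarith
      · simp only [C] at *
        nlinarith
  have hC7 : 2 * (h + 1) * (B + 1) * 2 = C := by simp only [C]; ring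
  obtain ⟨v, hv⟩ := hS (ZMod (2 * J + 1) × Option H) G
    (gArc_asymm A hA J o P (fun c => hoP c c (hR0 c)))
    (by
      rw [hN]
      exact hJ2.trans (le_trans (by omega : J ≤ 2 * J + 1)
        (Nat.le_mul_of_pos_right _ (Nat.succ_pos _))))
    (fun v => (hnon v).trans (by omega))
    (fun v => by
      rw [hN]
      have := (hout v).1
      omega)
    (fun v => by
      rw [hN]
      have hc := card_le_cover G v
      rw [hN] at hc
      have h3 := (hout v).2
      have h4 := hnon v
      omega)
  -- no vertex satisfies the inequality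
  rcases v with ⟨i, _ | a⟩
  · have hd : Disjoint (secondSet G (i, none)) (insert (i, none) (outSet G (i, none))) := by
      rw [Set.disjoint_left]
      rintro x ⟨hne, hna, -⟩ (rfl | hx)
      · exact hne rfl
      · exact hna hx
    have hc := Set.ncard_le_card (secondSet G (i, none) ∪ insert (i, none) (outSet G (i, none)))
    have hself : (i, none) ∉ outSet G (i, none) := by
      intro hx; simp [outSet, hG, gArc, rot] at hx
    rw [Set.ncard_union_eq hd, Set.ncard_insert_of_notMem hself, hN] at hc
    rw [out_none] at hv hc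
    have e : ((∑ c, (2 * J + 1 - P c) : ℕ) : ℤ) = (h : ℤ) * (J + 1) - ∑ c, T c := by
      push_cast
      rw [sum_congr rfl (fun c _ => (show ((2 * J + 1 - P c : ℕ) : ℤ) = J + 1 - T c by
        have := hPe c; have := hPL c; omega)), sum_sub_distrib, sum_const, card_univ, hh]
      simp
    have hc' : ((secondSet G (i, none)).ncard : ℤ) + (J + (∑ c, (2 * J + 1 - P c) : ℕ) + 1)
        ≤ (2 * J + 1) * (h + 1) := by exact_mod_cast hc
    have hv' : (J : ℤ) + (∑ c, (2 * J + 1 - P c) : ℕ)
        ≤ (secondSet G (i, none)).ncard := by exact_mod_cast hv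
    rw [e] at hc' hv'
    nlinarith
  · let U : Set (ZMod (2 * J + 1) × Option H) := (fun c => (i, some c)) '' {c | R a c}
    have hU : U.ncard = {c | R a c}.ncard :=
      Set.ncard_image_of_injective _ (fun x y hxy => by simpa using hxy)
    have hd1 : Disjoint (outSet G (i, some a)) U := by
      rw [Set.disjoint_left]
      rintro x hx ⟨c, hc, rfl⟩
      exact not_arc_of_rel A R hA hR J o P i a c hc hx
    have hd : Disjoint (secondSet G (i, some a)) (outSet G (i, some a) ∪ U) := by
      rw [Set.disjoint_left]
      rintro x hx2 (hx | ⟨c, hc, rfl⟩)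
      · exact hx2.2.1 hx
      · exact secondSet_avoids A R hR J o P hoP i a c hc hx2
    have hc := Set.ncard_le_card (secondSet G (i, some a) ∪ (outSet G (i, some a) ∪ U))
    have := hoL a
    rw [Set.ncard_union_eq hd, Set.ncard_union_eq hd1, hU, hN] at hc
    rw [out_some A J o P i a (by omega), ← hh] at hv hc
    have hoa := hoe a
    have h1a := h1 a
    have hc' : ((secondSet G (i, some a)).ncard : ℤ)
        + (o a + h * J + (outSet A a).ncard + {c | R a c}.ncard)
        ≤ (2 * J + 1) * (h + 1) := by exact_mod_cast hc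
    have hv' : (o a : ℤ) + h * J + (outSet A a).ncard
        ≤ (secondSet G (i, some a)).ncard := by exact_mod_cast hv
    nlinarith

end Gadget

end Vale.Agent.P038.Averaged
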