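import Mathlib

/-!
Median orders of an oriented graph: the block move inequality.
-/

namespace Vale.Agent.P038.MedianMove

open Finset

variable {V : Type*} [Fintype V]

/-- Number of arcs pointing forward in the order given by `f`. -/
noncomputable def forwardArcs (A : V → V → Prop) (f : V → ℕ) : ℕ :=
  open Classical in ((univ : Finset (V × V)).filter (fun p => A p.1 p.2 ∧ f p.1 < f p.2)).card

/-- An order maximising the number of forward arcs. -/
theorem exists_median (A : V → V → Prop) :
    ∃ f : V → ℕ, Function.Injective f ∧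
      ∀ g : V → ℕ, Function.Injective g → forwardArcs A g ≤ forwardArcs A f := by
  classical
  let P : ℕ → Prop := fun k => ∃ f : V → ℕ, Function.Injective f ∧ forwardArcs A f = k
  have hbd : ∀ g : V → ℕ, forwardArcs A g ≤ (univ : Finset (V × V)).card :=
    fun g => card_le_card (filter_subset _ _)
  let f0 : V → ℕ := fun x => (Fintype.equivFin V x).val
  have hf0 : Function.Injective f0 :=
    Fin.val_injective.comp (Fintype.equivFin V).injective
  have hP : P (Nat.findGreatest P (univ : Finset (V × V)).card) :=
    Nat.findGreatest_spec (hbd f0) ⟨f0, hf0, rfl⟩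
  obtain ⟨f, hf, hfk⟩ := hP
  exact ⟨f, hf, fun g hg => hfk ▸ Nat.le_findGreatest (hbd g) ⟨g, hg, rfl⟩⟩

/-- In a median order, moving the vertices of `S` at positions at least `s` to the front of that
suffix does not gain: such a vertex has, in total, no more out-neighbours than in-neighbours
among the vertices outside `S` that lie between `s` and itself. -/
theorem block_move (A : V → V → Prop) (f : V → ℕ) (hf : Function.Injective f)
    (hmax : ∀ g : V → ℕ, Function.Injective g → forwardArcs A g ≤ forwardArcs A f)
    (S : V → Prop) (s : ℕ) [DecidablePred S] [DecidableRel A] :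
    (∑ b ∈ univ.filter (fun b => S b ∧ s ≤ f b),
      (univ.filter (fun u => ¬ S u ∧ s ≤ f u ∧ f u < f b ∧ A b u)).card) ≤
    ∑ b ∈ univ.filter (fun b => S b ∧ s ≤ f b),
      (univ.filter (fun u => ¬ S u ∧ s ≤ f u ∧ f u < f b ∧ A u b)).card := by
  classical
  let C : ℕ := ∑ x, f x + 1
  have hC : ∀ x, f x < C := fun x =>
    Nat.lt_succ_of_le (Finset.single_le_sum (fun y _ => Nat.zero_le (f y)) (mem_univ x))
  let cls : V → ℕ := fun x => if f x < s then 0 else if S x then 1 else 2
  let g : V → ℕ := fun x => cls x * C + f x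
  have hg_lt : ∀ x y, g x < g y ↔ cls x < cls y ∨ (cls x = cls y ∧ f x < f y) := by
    intro x y
    have hx := hC x
    have hy := hC y
    simp only [g]
    constructor
    · intro h
      rcases lt_trichotomy (cls x) (cls y) with h1 | h1 | h1
      · exact Or.inl h1
      · rw [h1] at h
        exact Or.inr ⟨h1, by omega⟩
      · exfalso
        have : (cls y + 1) * C ≤ cls x * C := Nat.mul_le_mul_right C h1
        rw [add_mul, one_mul] at this
        omega
    · rintro (h1 | ⟨h1, h2⟩)
      · have : (cls x + 1) * C ≤ cls y * C := Nat.mul_le_mul_right C h1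
        rw [add_mul, one_mul] at this
        omega
      · rw [h1]; omega
  have hg : Function.Injective g := by
    intro x y h
    by_contra hne
    have hne' : f x ≠ f y := fun e => hne (hf e)
    rcases lt_trichotomy (cls x) (cls y) with h1 | h1 | h1
    · exact absurd h (ne_of_lt ((hg_lt x y).mpr (Or.inl h1)))
    · rcases lt_or_gt_of_ne hne' with h2 | h2
      · exact absurd h (ne_of_lt ((hg_lt x y).mpr (Or.inr ⟨h1, h2⟩)))
      · exact absurd h.symm (ne_of_lt ((hg_lt y x).mpr (Or.inr ⟨h1.symm, h2⟩)))
    · exact absurd h.symm (ne_of_lt ((hg_lt y x).mpr (Or.inl h1)))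
  let Q : V → V → Prop := fun b u => (S b ∧ s ≤ f b) ∧ ¬ S u ∧ s ≤ f u ∧ f u < f b
  have key : ∀ x y, x ≠ y → (g x < g y ↔ (f x < f y ∧ ¬ Q y x) ∨ Q x y) := by
    intro x y hxy
    have hne : f x ≠ f y := fun e => hxy (hf e)
    rw [hg_lt]
    simp only [cls, Q]
    by_cases hx : S x <;> by_cases hy : S y <;> simp only [hx, hy, if_true, if_false,
      not_true_eq_false, not_false_eq_true, true_and, false_and, and_false, and_true, or_false] <;>
      split_ifs <;> omega
  let Eb : Finset (V × V) := univ.filter (fun p => A p.1 p.2 ∧ Q p.1 p.2)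
  let El : Finset (V × V) := univ.filter (fun p => A p.1 p.2 ∧ Q p.2 p.1)
  let Ef : Finset (V × V) := univ.filter (fun p => A p.1 p.2 ∧ f p.1 < f p.2 ∧ ¬ Q p.2 p.1)
  have e1 : forwardArcs A f = Ef.card + El.card := by
    rw [← card_union_of_disjoint]
    · unfold forwardArcs
      congr 1
      ext p
      simp only [mem_filter, mem_univ, true_and, mem_union, Ef, El, Q]
      tauto
    · rw [disjoint_left]
      intro p hp hq
      simp only [mem_filter, Ef, El] at hp hq
      exact hp.2.2.2 hq.2.2
  have e2 : Ef.card + Eb.card ≤ forwardArcs A g := by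
    rw [← card_union_of_disjoint]
    · refine card_le_card fun p hp => ?_
      simp only [mem_filter, mem_univ, true_and, mem_union, Ef, Eb] at hp
      simp only [mem_filter, mem_univ, true_and]
      have hne : p.1 ≠ p.2 := by
        intro e
        rcases hp with ⟨_, h, _⟩ | ⟨_, h⟩
        · rw [e] at h; omega
        · simp only [Q] at h; rw [e] at h; omega
      rcases hp with ⟨hA, h⟩ | ⟨hA, h⟩
      · exact ⟨hA, (key _ _ hne).mpr (Or.inl h)⟩
      · exact ⟨hA, (key _ _ hne).mpr (Or.inr h)⟩
    · rw [disjoint_left]
      intro p hp hq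
      simp only [mem_filter, Ef, Eb, Q] at hp hq
      omega
  have e3 : Eb.card ≤ El.card := by have := hmax g hg; omega
  have hb : Eb.card = ∑ b ∈ univ.filter (fun b => S b ∧ s ≤ f b),
      (univ.filter (fun u => ¬ S u ∧ s ≤ f u ∧ f u < f b ∧ A b u)).card := by
    simp only [Eb, card_filter, sum_filter, ← univ_product_univ, sum_product]
    refine sum_congr rfl fun b _ => ?_
    by_cases h : S b ∧ s ≤ f b <;> simp [Q, h, and_comm, and_left_comm]
  have hl : El.card = ∑ b ∈ univ.filter (fun b => S b ∧ s ≤ f b),
      (univ.filter (fun u => ¬ S u ∧ s ≤ f u ∧ f u < f b ∧ A u b)).card := by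
    simp only [El, card_filter, sum_filter, ← univ_product_univ, sum_product]
    rw [sum_comm]
    refine sum_congr rfl fun b _ => ?_
    by_cases h : S b ∧ s ≤ f b <;> simp [Q, h, and_comm, and_left_comm]
  omega

end Vale.Agent.P038.MedianMove
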