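import Vale.Agent.P038.Defs
import Vale.Agent.P038.MedianMove

/-!
The last vertex of a median order: second neighbourhood bound for nearly complete graphs.
-/

namespace Vale.Agent.P038.MedianBound

open Finset MedianMove

variable {V : Type} [Fintype V]

/-- Counting lemma: a finite set with injective positions has exactly `m` elements having at
most `m` elements of the set at or after them. -/
theorem card_rank_le {α : Type*} (T : Finset α) (f : α → ℕ) (hf : Function.Injective f) (m : ℕ)
    (hm : m ≤ T.card) :
    (T.filter (fun b => (T.filter (fun c => f b ≤ f c)).card ≤ m)).card = m := by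
  classical
  let r : α → ℕ := fun b => (T.filter (fun c => f b ≤ f c)).card
  have hlt : ∀ b ∈ T, ∀ b', f b < f b' → r b' < r b := by
    intro b hb b' h
    refine card_lt_card ⟨fun c hc => ?_, fun hs => ?_⟩
    · simp only [mem_filter] at hc ⊢
      exact ⟨hc.1, by omega⟩
    · have := hs (mem_filter.mpr ⟨hb, le_rfl⟩)
      simp only [mem_filter] at this
      omega
  have hinj : Set.InjOn r (T : Set α) := by
    intro a ha b hb h
    by_contra hne
    rcases lt_or_gt_of_ne (fun e => hne (hf e) : f a ≠ f b) with h1 | h1
    · have := hlt a ha b h1; omega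
    · have := hlt b hb a h1; omega
  have himg : T.image r = Icc 1 T.card := by
    refine eq_of_subset_of_card_le (fun x hx => ?_) ?_
    · obtain ⟨b, hb, rfl⟩ := mem_image.mp hx
      exact mem_Icc.mpr ⟨card_pos.mpr ⟨b, mem_filter.mpr ⟨hb, le_rfl⟩⟩,
        card_le_card (filter_subset _ _)⟩
    · rw [card_image_of_injOn hinj, Nat.card_Icc]; omega
  have e : (T.filter (fun b => r b ≤ m)).image r = Icc 1 m := by
    ext x
    constructor
    · intro hx
      obtain ⟨b, hb, rfl⟩ := mem_image.mp hx
      obtain ⟨hb1, hb2⟩ := mem_filter.mp hb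
      exact mem_Icc.mpr ⟨(mem_Icc.mp (himg ▸ mem_image_of_mem r hb1)).1, hb2⟩
    · intro hx
      obtain ⟨h1, h2⟩ := mem_Icc.mp hx
      have : x ∈ T.image r := by rw [himg]; exact mem_Icc.mpr ⟨h1, by omega⟩
      obtain ⟨b, hb, hbx⟩ := mem_image.mp this
      exact mem_image.mpr ⟨b, mem_filter.mpr ⟨hb, hbx ▸ h2⟩, hbx⟩
  have := card_image_of_injOn (s := T.filter (fun b => r b ≤ m)) (f := r)
    (fun a ha b hb h => hinj (mem_filter.mp ha).1 (mem_filter.mp hb).1 h)
  rw [e, Nat.card_Icc] at this
  simpa using this.symm

/-- The recursion. `R s` is an excess over a suffix starting at `s`, `T s` the set of bad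
vertices in that suffix. -/
theorem recursion {α : Type*} (T : ℕ → Finset α) (f : α → ℕ) (hf : Function.Injective f)
    (hT : ∀ s, T s = (T 0).filter (fun b => s ≤ f b))
    (R : ℕ → ℤ) (Δ : ℕ)
    (hR1 : ∀ s, R s ≤ (T s).card)
    (hR2 : ∀ s, ∑ b ∈ T s, R s ≤ ∑ b ∈ T s, R (f b) + Δ * (T s).card)
    (k : ℕ) : ∀ s, (T s).card ≤ 2 ^ k * Δ → R s ≤ Δ * (2 * k + 1) := by
  classical
  have hmem : ∀ s b, b ∈ T s → s ≤ f b := by
    intro s b hb; rw [hT s] at hb; exact (mem_filter.mp hb).2
  induction k with
  | zero =>
    intro s hs
    have := hR1 s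
    push_cast
    simp only [pow_zero, one_mul] at hs
    omega
  | succ k ih =>
    -- strong induction on the number of bad vertices
    suffices h : ∀ β s, (T s).card = β → β ≤ 2 ^ (k + 1) * Δ → R s ≤ Δ * (2 * (k + 1) + 1) by
      intro s hs; exact_mod_cast h _ s rfl hs
    intro β
    induction β using Nat.strongRecOn with
    | ind β ihβ =>
      intro s hβ hle
      by_cases hsmall : β ≤ 2 ^ k * Δ
      · have := ih s (hβ ▸ hsmall)
        nlinarith [Int.natCast_nonneg Δ]
      · push Not at hsmall
        by_contra hcon
        push Not at hcon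
        set m := 2 ^ k * Δ with hm
        let L := (T s).filter (fun b => ((T s).filter (fun c => f b ≤ f c)).card ≤ m)
        have hL : L.card = m := card_rank_le (T s) f hf m (hβ ▸ hsmall.le)
        have hd : ((T s \ L).card : ℤ) = β - m := by
          have : (T s \ L).card + L.card = (T s).card :=
            card_sdiff_add_card_eq_card (filter_subset _ (T s))
          rw [hL, hβ] at this
          omega
        have hsub : ∀ b ∈ T s, T (f b) = (T s).filter (fun c => f b ≤ f c) := by
          intro b hb
          rw [hT (f b), hT s, filter_filter]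
          refine filter_congr fun c _ => ?_
          have := hmem s b hb
          constructor
          · intro h; exact ⟨by omega, h⟩
          · exact fun h => h.2
        have h1 : ∀ b ∈ L, R (f b) ≤ Δ * (2 * k + 1) := by
          intro b hb
          obtain ⟨hb1, hb2⟩ := mem_filter.mp hb
          exact_mod_cast ih (f b) (by rw [hsub b hb1]; exact hb2)
        have h2 : ∀ b ∈ T s \ L, R (f b) ≤ R s := by
          intro b hb
          have hb1 := (mem_sdiff.mp hb).1
          have hle' : (T (f b)).card ≤ β := by
            rw [hsub b hb1, ← hβ]; exact card_filter_le _ _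
          rcases hle'.lt_or_eq with h | h
          · have := ihβ _ h (f b) rfl (by omega)
            exact le_of_lt (lt_of_le_of_lt (by exact_mod_cast this) hcon)
          · -- the first bad vertex of the suffix
            have heq : T (f b) = T s := by
              rw [hsub b hb1]
              exact eq_of_subset_of_card_le (filter_subset _ _) (by rw [← hsub b hb1]; omega)
            by_contra hgt
            push Not at hgt
            have hs2 := hR2 (f b)
            rw [heq] at hs2
            have hle2 : ∑ c ∈ T s, R (f c) ≤ ∑ c ∈ L, (Δ * (2 * k + 1) : ℤ) +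
                ∑ c ∈ T s \ L, R (f b) := by
              rw [← sum_sdiff (filter_subset _ (T s) : L ⊆ T s), add_comm]
              refine add_le_add (sum_le_sum h1) (sum_le_sum fun c hc => ?_)
              by_cases hcb : f c = f b
              · rw [hcb]
              · have hc1 := (mem_sdiff.mp hc).1
                have : f b < f c := by
                  rw [← heq] at hc1
                  exact lt_of_le_of_ne (hmem _ _ hc1) (Ne.symm hcb)
                have hl : (T (f c)).card < β := by
                  rw [hsub c hc1, ← hβ]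
                  refine card_lt_card ⟨filter_subset _ _, fun hs' => ?_⟩
                  have := (mem_filter.mp (hs' hb1)).2
                  omega
                have := ihβ _ hl (f c) rfl (by omega)
                omega
            simp only [sum_const, nsmul_eq_mul, hL, hd, hβ] at hle2 hs2
            have hmβ : (β : ℤ) ≤ 2 * m := by
              have : β ≤ 2 * m := by rw [hm]; rw [pow_succ] at hle; linarith
              exact_mod_cast this
            nlinarith [Int.natCast_nonneg Δ, Int.natCast_nonneg m]
        have hs2 := hR2 s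
        have hle2 : ∑ c ∈ T s, R (f c) ≤ ∑ c ∈ L, (Δ * (2 * k + 1) : ℤ) +
            ∑ c ∈ T s \ L, R s := by
          rw [← sum_sdiff (filter_subset _ (T s) : L ⊆ T s), add_comm]
          exact add_le_add (sum_le_sum h1) (sum_le_sum h2)
        simp only [sum_const, nsmul_eq_mul, hL, hd, hβ] at hle2 hs2
        have hmβ : (β : ℤ) ≤ 2 * m := by
          have : β ≤ 2 * m := by rw [hm]; rw [pow_succ] at hle; linarith
          exact_mod_cast this
        have hmpos : 0 < (m : ℤ) := by
          have : 0 < Δ := by
            rcases Nat.eq_zero_or_pos Δ with h | h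
            · subst h; omega
            · exact h
          have : 0 < m := by rw [hm]; positivity
          exact_mod_cast this
        nlinarith [Int.natCast_nonneg Δ, Int.natCast_nonneg m]

/-- Seymour's inequality up to `Δ (2k + 1)` when no vertex is nonadjacent to more than `Δ`
others and there are at most `2 ^ k * Δ` vertices. -/
theorem exists_near (A : V → V → Prop) [Nonempty V] [DecidableRel A] [DecidableEq V]
    (hA : ∀ u v, A u v → ¬ A v u) (Δ : ℕ)
    (hΔ : ∀ u, (univ.filter (fun x => x ≠ u ∧ ¬ A u x ∧ ¬ A x u)).card ≤ Δ)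
    (k : ℕ) (hk : Fintype.card V ≤ 2 ^ k * Δ) :
    ∃ v, (outOne A v).card ≤ (outTwo A v).card + Δ * (2 * k + 1) := by
  obtain ⟨f, hf, hmax⟩ := exists_median A
  obtain ⟨v, -, hv⟩ := exists_max_image (univ : Finset V) f univ_nonempty
  refine ⟨v, ?_⟩
  have hv' : ∀ x, x ≠ v → f x < f v := fun x hx =>
    lt_of_le_of_ne (hv x (mem_univ x)) (fun e => hx (hf e))
  let bad : V → Prop := fun x => x ≠ v ∧ x ∉ outOne A v ∧ x ∉ outTwo A v
  let T : ℕ → Finset V := fun s => univ.filter (fun b => bad b ∧ s ≤ f b)
  let a : ℕ → ℤ := fun s => (((outOne A v).filter (fun x => s ≤ f x)).card : ℤ)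
  let g : ℕ → ℤ := fun s => (((outTwo A v).filter (fun x => s ≤ f x)).card : ℤ)
  have hT : ∀ s, T s = (T 0).filter (fun b => s ≤ f b) := by
    intro s; ext b; simp [T]
  have h1mem : ∀ y x, x ∈ outOne A y ↔ A y x := by intro y x; simp [outOne]
  have h2mem : ∀ y x, x ∈ outTwo A y ↔ x ≠ y ∧ ¬ A y x ∧ ∃ u, A y u ∧ A u x := by
    intro y x; simp [outTwo]
  have hR1 : ∀ s, a s - g s ≤ (T s).card := by
    intro s
    have h := block_move A f hf hmax (fun x => x = v) s
    by_cases hsv : s ≤ f v
    · have e : univ.filter (fun b => b = v ∧ s ≤ f b) = {v} := by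
        ext b; simp only [mem_filter, mem_univ, true_and, mem_singleton]
        constructor
        · exact fun h => h.1
        · rintro rfl; exact ⟨rfl, hsv⟩
      rw [e, sum_singleton, sum_singleton] at h
      have i1 : (outOne A v).filter (fun x => s ≤ f x) ⊆
          univ.filter (fun u => ¬ u = v ∧ s ≤ f u ∧ f u < f v ∧ A v u) := by
        intro x hx
        simp only [mem_filter, h1mem, mem_univ, true_and] at hx ⊢
        have hxv : x ≠ v := fun e => hA v v (e ▸ hx.1) (e ▸ hx.1)
        exact ⟨hxv, hx.2, hv' x hxv, hx.1⟩
      have i2 : univ.filter (fun u => ¬ u = v ∧ s ≤ f u ∧ f u < f v ∧ A u v) ⊆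
          (outTwo A v).filter (fun x => s ≤ f x) ∪ T s := by
        intro x hx
        simp only [mem_filter, mem_univ, true_and] at hx
        simp only [mem_union, mem_filter, T, bad, mem_univ, true_and]
        by_cases hx2 : x ∈ outTwo A v
        · exact Or.inl ⟨hx2, hx.2.1⟩
        · exact Or.inr ⟨⟨hx.1, fun h1 => hA x v hx.2.2.2 ((h1mem v x).mp h1), hx2⟩, hx.2.1⟩
      have j1 := card_le_card i1
      have j2 := (card_le_card i2).trans (card_union_le _ _)
      simp only [a, g]
      omega
    · have e : (outOne A v).filter (fun x => s ≤ f x) = ∅ := by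
        ext x
        simp only [mem_filter, notMem_empty, iff_false, not_and]
        intro _ hx
        exact hsv (hx.trans (hv x (mem_univ x)))
      simp only [a, g, e, card_empty]
      omega
  have hR2 : ∀ s, ∑ b ∈ T s, (a s - g s) ≤ ∑ b ∈ T s, (a (f b) - g (f b)) + Δ * (T s).card := by
    intro s
    have h := block_move A f hf hmax bad s
    have hpt : ∀ b ∈ T s, (a s - g s) - (a (f b) - g (f b)) - Δ ≤
        ((univ.filter (fun u => ¬ bad u ∧ s ≤ f u ∧ f u < f b ∧ A b u)).card : ℤ) -
          (univ.filter (fun u => ¬ bad u ∧ s ≤ f u ∧ f u < f b ∧ A u b)).card := by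
      intro b hb
      simp only [T, mem_filter, mem_univ, true_and] at hb
      obtain ⟨⟨hbv, hb1, hb2⟩, hsb⟩ := hb
      have hsplit : ∀ X : Finset V, (X.filter (fun x => s ≤ f x)).card =
          (X.filter (fun x => f b ≤ f x)).card +
            (X.filter (fun x => s ≤ f x ∧ f x < f b)).card := by
        intro X
        rw [← card_union_of_disjoint]
        · congr 1
          ext x
          simp only [mem_union, mem_filter]
          constructor
          · intro hx
            by_cases hc : f b ≤ f x
            · exact Or.inl ⟨hx.1, hc⟩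
            · exact Or.inr ⟨hx.1, hx.2, by omega⟩
          · rintro (hx | hx)
            · exact ⟨hx.1, by omega⟩
            · exact ⟨hx.1, hx.2.1⟩
        · rw [disjoint_left]
          intro x hx hy
          simp only [mem_filter] at hx hy
          omega
      have hreach : ∀ u, A v u → ¬ A u b := by
        intro u hu hub
        exact hb2 ((h2mem v b).mpr ⟨hbv, fun h => hb1 ((h1mem v b).mpr h), u, hu, hub⟩)
      have i1 : (outOne A v).filter (fun x => s ≤ f x ∧ f x < f b) ⊆
          univ.filter (fun u => ¬ bad u ∧ s ≤ f u ∧ f u < f b ∧ A b u) ∪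
            univ.filter (fun x => x ≠ b ∧ ¬ A b x ∧ ¬ A x b) := by
        intro x hx
        simp only [mem_filter] at hx
        simp only [mem_union, mem_filter, mem_univ, true_and]
        by_cases hbx : A b x
        · exact Or.inl ⟨fun hb' => hb'.2.1 hx.1, hx.2.1, hx.2.2, hbx⟩
        · refine Or.inr ⟨?_, hbx, hreach x ((h1mem v x).mp hx.1)⟩
          rintro rfl; omega
      have i2 : univ.filter (fun u => ¬ bad u ∧ s ≤ f u ∧ f u < f b ∧ A u b) ⊆
          (outTwo A v).filter (fun x => s ≤ f x ∧ f x < f b) := by
        intro x hx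
        simp only [mem_filter, mem_univ, true_and] at hx
        simp only [mem_filter]
        refine ⟨?_, hx.2.1, hx.2.2.1⟩
        have hxv : x ≠ v := by
          rintro rfl
          exact hb1 ((h1mem _ b).mpr hx.2.2.2)
        by_contra hx2
        refine hx.1 ⟨hxv, fun h1 => hreach x ((h1mem v x).mp h1) hx.2.2.2, hx2⟩
      have j1 := (card_le_card i1).trans (card_union_le _ _)
      have j2 := card_le_card i2
      have j3 := hΔ b
      have s1 := hsplit (outOne A v)
      have s2 := hsplit (outTwo A v)
      simp only [a, g]
      omega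
    have hsum := sum_le_sum hpt
    have h' : (∑ b ∈ T s,
        ((univ.filter (fun u => ¬ bad u ∧ s ≤ f u ∧ f u < f b ∧ A b u)).card : ℤ)) ≤
        ∑ b ∈ T s, ((univ.filter (fun u => ¬ bad u ∧ s ≤ f u ∧ f u < f b ∧ A u b)).card : ℤ) := by
      exact_mod_cast h
    simp only [T, sum_sub_distrib, sum_const, nsmul_eq_mul] at hsum h' ⊢
    linarith
  have hfin := recursion T f hf hT (fun s => a s - g s) Δ hR1 hR2 k 0
    (le_trans (card_le_card (subset_univ _)) hk)
  simp only [a, g, zero_le, filter_true] at hfin
  zify
  linarith

end Vale.Agent.P038.MedianBound
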