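import Vale.Agent.P038.SkewEquilibrium

/-!
A per-target certificate for Seymour's second neighbourhood inequality.
-/

namespace Vale.Agent.P038.PerTarget

open Finset

variable {V : Type*} [Fintype V]

/-- Master inequality: if for every target `b` there is a distribution `P b` whose `k`-flow at
every relevant vertex `c` is at most `S c b - N c b`, then some relevant vertex is good. -/
theorem exists_good (k S N : V → V → ℝ) (hk : ∀ i j, k i j = - k j i)
    (Y : Finset V) (P : V → V → ℝ) (hP0 : ∀ b y, 0 ≤ P b y) (hP1 : ∀ b, ∑ y, P b y = 1)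
    (hPY : ∀ b y, y ∉ Y → P b y = 0)
    (hflow : ∀ b, ∀ c ∈ Y, ∑ y, P b y * k y c ≤ S c b - N c b)
    (w : V → ℝ) (hw : ∀ b, 0 ≤ w b) (hW : 0 < ∑ b, w b) :
    ∃ c ∈ Y, ∑ b, w b * N c b ≤ ∑ b, w b * S c b := by
  classical
  let t : V → ℝ := fun y => ∑ b, w b * P b y
  have ht0 : ∀ y, 0 ≤ t y := fun y => sum_nonneg fun b _ => mul_nonneg (hw b) (hP0 b y)
  have htY : ∀ y, y ∉ Y → t y = 0 := fun y hy => by
    simp [t, hPY _ y hy]
  have htsum : ∑ y, t y = ∑ b, w b := by
    simp only [t]
    rw [sum_comm]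
    refine sum_congr rfl fun b _ => ?_
    rw [← mul_sum, hP1 b, mul_one]
  by_contra hno
  push Not at hno
  have hL : ∀ c ∈ Y, ∑ y, t y * k y c ≤ ∑ b, w b * S c b - ∑ b, w b * N c b := by
    intro c hc
    have e : ∑ y, t y * k y c = ∑ b, w b * ∑ y, P b y * k y c := by
      simp only [t, sum_mul, mul_sum]
      rw [sum_comm]
      refine sum_congr rfl fun b _ => sum_congr rfl fun y _ => ?_
      ring
    rw [e, ← sum_sub_distrib]
    refine sum_le_sum fun b _ => ?_
    rw [← mul_sub]
    exact mul_le_mul_of_nonneg_left (hflow b c hc) (hw b)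
  have hzero : ∑ c, t c * ∑ y, t y * k y c = 0 := by
    have e1 : ∑ c, t c * ∑ y, t y * k y c = ∑ c, ∑ y, t c * t y * k y c := by
      simp [mul_sum, mul_assoc]
    have e2 : ∑ c, ∑ y, t c * t y * k y c = - ∑ c, ∑ y, t c * t y * k y c := by
      conv_lhs => rw [sum_comm]
      rw [← sum_neg_distrib]
      refine sum_congr rfl fun c _ => ?_
      rw [← sum_neg_distrib]
      refine sum_congr rfl fun y _ => ?_
      rw [hk c y]; ring
    linarith
  have hex : ∃ c ∈ Y, 0 < t c := by
    by_contra hnone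
    push Not at hnone
    have : ∑ y, t y = 0 := sum_eq_zero fun y _ => by
      by_cases hy : y ∈ Y
      · exact le_antisymm (hnone y hy) (ht0 y)
      · exact htY y hy
    linarith
  have hlt : ∑ c, t c * ∑ y, t y * k y c < 0 := by
    obtain ⟨c0, hc0, hpos⟩ := hex
    have hle : ∀ c ∈ (univ : Finset V), t c * ∑ y, t y * k y c ≤ 0 := by
      intro c _
      by_cases hc : c ∈ Y
      · exact mul_nonpos_of_nonneg_of_nonpos (ht0 c) (by linarith [hL c hc, hno c hc])
      · simp [htY c hc]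
    have hstrict : t c0 * ∑ y, t y * k y c0 < 0 :=
      mul_neg_of_pos_of_neg hpos (by linarith [hL c0 hc0, hno c0 hc0])
    calc ∑ c, t c * ∑ y, t y * k y c < ∑ _c : V, (0 : ℝ) :=
          sum_lt_sum hle ⟨c0, mem_univ _, hstrict⟩
      _ = 0 := by simp
  linarith

/-- The averaged form: the combination with weights `t y = ∑ b, w b * P b y` is nonnegative. -/
theorem sum_nonneg_combination (k S N : V → V → ℝ) (hk : ∀ i j, k i j = - k j i)
    (Y : Finset V) (P : V → V → ℝ) (hP0 : ∀ b y, 0 ≤ P b y)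
    (hPY : ∀ b y, y ∉ Y → P b y = 0)
    (w : V → ℝ) (hw : ∀ b, 0 ≤ w b)
    (hflow : ∀ b, w b ≠ 0 → ∀ c ∈ Y, ∑ y, P b y * k y c ≤ S c b - N c b) :
    0 ≤ ∑ c, (∑ b, w b * P b c) * ∑ b, w b * (S c b - N c b) := by
  classical
  let t : V → ℝ := fun y => ∑ b, w b * P b y
  have hzero : ∑ c, t c * ∑ y, t y * k y c = 0 := by
    have e1 : ∑ c, t c * ∑ y, t y * k y c = ∑ c, ∑ y, t c * t y * k y c := by
      simp [mul_sum, mul_assoc]
    have e2 : ∑ c, ∑ y, t c * t y * k y c = - ∑ c, ∑ y, t c * t y * k y c := by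
      conv_lhs => rw [sum_comm]
      rw [← sum_neg_distrib]
      refine sum_congr rfl fun c _ => ?_
      rw [← sum_neg_distrib]
      refine sum_congr rfl fun y _ => ?_
      rw [hk c y]; ring
    linarith
  rw [← hzero]
  refine sum_le_sum fun c _ => ?_
  by_cases hc : c ∈ Y
  · refine mul_le_mul_of_nonneg_left ?_ (sum_nonneg fun b _ => mul_nonneg (hw b) (hP0 b c))
    have e : ∑ y, t y * k y c = ∑ b, w b * ∑ y, P b y * k y c := by
      simp only [t, sum_mul, mul_sum]
      rw [sum_comm]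
      refine sum_congr rfl fun b _ => sum_congr rfl fun y _ => ?_
      ring
    rw [e]
    refine sum_le_sum fun b _ => ?_
    by_cases hb : w b = 0
    · simp [hb]
    · exact mul_le_mul_of_nonneg_left (hflow b hb c hc) (hw b)
  · simp [t, hPY _ c hc]

end Vale.Agent.P038.PerTarget
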