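import Mathlib

/-!
Equilibria of finite skew-symmetric games.
-/

namespace Vale.Agent.P038

open Finset

/-- A skew-symmetric payoff matrix has a mixed strategy losing to no pure strategy. -/
theorem exists_skew_equilibrium {ι : Type*} [Fintype ι] [Nonempty ι] (k : ι → ι → ℝ)
    (hk : ∀ i j, k i j = - k j i) :
    ∃ P : ι → ℝ, (∀ i, 0 ≤ P i) ∧ ∑ i, P i = 1 ∧ ∀ c, ∑ y, P y * k y c ≤ 0 := by
  classical
  let L : (ι → ℝ) →ₗ[ℝ] (ι → ℝ) :=
    { toFun := fun P c => ∑ y, P y * k y c
      map_add' := fun P Q => by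
        funext c; simp [add_mul, sum_add_distrib]
      map_smul' := fun a P => by
        funext c; simp [mul_sum, mul_assoc] }
  by_contra hno
  push Not at hno
  have hcomp : IsCompact (L '' stdSimplex ℝ ι) :=
    (isCompact_stdSimplex ℝ ι).image L.continuous_of_finiteDimensional
  have hconv : Convex ℝ (L '' stdSimplex ℝ ι) := (convex_stdSimplex ℝ ι).linear_image L
  have hclosed : IsClosed (Set.Iic (0 : ι → ℝ)) := isClosed_Iic
  have hdisj : Disjoint (L '' stdSimplex ℝ ι) (Set.Iic (0 : ι → ℝ)) := by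
    rw [Set.disjoint_left]
    rintro x ⟨P, ⟨hP0, hP1⟩, rfl⟩ hle
    obtain ⟨c, hc⟩ := hno P hP0 hP1
    exact absurd (hle c) (not_le.mpr hc)
  obtain ⟨f, u, v, hu, huv, hv⟩ :=
    geometric_hahn_banach_compact_closed hconv hcomp (convex_Iic (0 : ι → ℝ)) hclosed hdisj
  have hv0 : v < 0 := by
    have h := hv 0 (by simp)
    simpa using h
  -- coordinates of `f`
  let z : ι → ℝ := fun i => - f (Pi.single i 1)
  have hz : ∀ i, 0 ≤ z i := by
    intro i
    by_contra hneg
    have hpos : 0 < f (Pi.single i 1) := by simpa [z] using not_le.mp hneg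
    let s : ℝ := -v / f (Pi.single i 1) + 1
    have hs : 0 ≤ s := by
      have h1 : 0 ≤ -v / f (Pi.single i 1) := div_nonneg (by linarith) hpos.le
      simp only [s]; linarith
    have hmem : (-s) • (Pi.single i (1 : ℝ) : ι → ℝ) ∈ Set.Iic (0 : ι → ℝ) := by
      intro j
      by_cases hji : j = i
      · subst hji; simpa using hs
      · simp [hji]
    have h := hv _ hmem
    rw [map_smul, smul_eq_mul] at h
    have hmul : s * f (Pi.single i 1) = -v + f (Pi.single i 1) := by
      simp only [s]; field_simp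
    nlinarith
  have hf : ∀ x : ι → ℝ, f x = - ∑ i, x i * z i := by
    intro x
    conv_lhs => rw [pi_eq_sum_univ' x]
    rw [map_sum, ← sum_neg_distrib]
    refine sum_congr rfl fun i _ => ?_
    rw [map_smul, smul_eq_mul]
    simp only [z]
    ring
  obtain ⟨i0⟩ := ‹Nonempty ι›
  have hSpos : 0 < ∑ i, z i := by
    rcases (Finset.sum_nonneg (fun i (_ : i ∈ Finset.univ) => hz i)).lt_or_eq with h | h
    · exact h
    · exfalso
      have hzero : ∀ i, z i = 0 := fun i =>
        (Finset.sum_eq_zero_iff_of_nonneg (fun i _ => hz i)).mp h.symm i (mem_univ i)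
      have h2 := hu _ ⟨Pi.single i0 1, single_mem_stdSimplex ℝ i0, rfl⟩
      rw [hf] at h2
      simp [hzero] at h2
      linarith
  let P : ι → ℝ := fun i => z i / ∑ j, z j
  have hP : P ∈ stdSimplex ℝ ι :=
    ⟨fun i => div_nonneg (hz i) hSpos.le, by simp only [P]; rw [← sum_div, div_self hSpos.ne']⟩
  have h2 := hu _ ⟨P, hP, rfl⟩
  have hskew : ∑ c, (∑ y, z y * k y c) * z c = 0 := by
    have e1 : ∑ c, (∑ y, z y * k y c) * z c = ∑ c, ∑ y, z y * k y c * z c := by
      simp [sum_mul]
    have e2 : ∑ c, ∑ y, z y * k y c * z c = - ∑ c, ∑ y, z y * k y c * z c := by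
      conv_lhs => rw [sum_comm]
      rw [← sum_neg_distrib]
      refine sum_congr rfl fun c _ => ?_
      rw [← sum_neg_distrib]
      refine sum_congr rfl fun y _ => ?_
      rw [hk c y]; ring
    linarith
  have hfP : f (L P) = 0 := by
    rw [hf]
    have : ∑ c, L P c * z c = (∑ c, (∑ y, z y * k y c) * z c) / ∑ j, z j := by
      rw [sum_div]
      refine sum_congr rfl fun c _ => ?_
      simp only [L, LinearMap.coe_mk, AddHom.coe_mk, P, sum_mul, sum_div]
      refine sum_congr rfl fun y _ => ?_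
      ring
    rw [this, hskew]; simp
  linarith

end Vale.Agent.P038
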